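import Vale.Agent.P358.Channel

/-!
Additivity of the Holevo capacity of the generalized amplitude-damping channel and the value of its
classical capacity.
-/

open Matrix
open scoped ComplexOrder ComplexConjugate Kronecker

namespace Vale.Agent.P358

/-- Holevo quantity, in nats, of a weighted family of output matrices. -/
noncomputable def hol {d ι : Type*} [Fintype d] [DecidableEq d] [Fintype ι] (p : ι → ℝ)
    (ρ : ι → Matrix d d ℂ) : ℝ :=
  Sent (∑ a, (p a : ℂ) • ρ a) - ∑ a, p a * Sent (ρ a)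

variable {d d' : Type*} [Fintype d] [DecidableEq d] [Fintype d'] [DecidableEq d']

lemma isHermitian_real_sum {ι : Type*} [Fintype ι] (p : ι → ℝ) {ρ : ι → Matrix d d ℂ}
    (h : ∀ a, (ρ a).IsHermitian) : (∑ a, (p a : ℂ) • ρ a).IsHermitian := by
  show (∑ a, (p a : ℂ) • ρ a)ᴴ = _
  simp [conjTranspose_sum, (h _).eq]

lemma hol_vnEntropy {ι : Type*} [Fintype ι] (p : ι → ℝ) {ρ : ι → Matrix d d ℂ}
    (h : ∀ a, (ρ a).IsHermitian) :
    vnEntropy (∑ a, (p a : ℂ) • ρ a) - ∑ a, p a * vnEntropy (ρ a) = hol p ρ / Real.log 2 := by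
  rw [hol, vnEntropy_eq (isHermitian_real_sum p h), sub_div, Finset.sum_div]
  simp only [vnEntropy_eq (h _), mul_div_assoc]

lemma mem_holevoSet {ι : Type*} [Fintype ι] {Φ : Matrix d d ℂ → Matrix d' d' ℂ}
    (hΦ : ∀ ρ, IsState ρ → IsState (Φ ρ)) {p : ι → ℝ} {ρ : ι → Matrix d d ℂ}
    (hp : ∀ a, 0 ≤ p a) (hp1 : ∑ a, p a = 1) (hρ : ∀ a, IsState (ρ a)) :
    hol p (fun a => Φ (ρ a)) / Real.log 2 ∈ holevoSet Φ := by
  set e := (Fintype.equivFin ι).symm
  refine ⟨Fintype.card ι, p ∘ e, ρ ∘ e, fun a => hp _, ?_, fun a => hρ _, ?_⟩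
  · rw [← hp1]
    exact e.sum_comp p
  · rw [← hol_vnEntropy p fun a => (hΦ _ (hρ a)).1.1]
    simp only [Function.comp_def]
    rw [e.sum_comp (fun a => (p a : ℂ) • Φ (ρ a)), e.sum_comp (fun a => p a * vnEntropy (Φ (ρ a)))]

lemma exists_of_mem_holevoSet {Φ : Matrix d d ℂ → Matrix d' d' ℂ}
    (hΦ : ∀ ρ, IsState ρ → IsState (Φ ρ)) {v : ℝ} (hv : v ∈ holevoSet Φ) :
    ∃ (k : ℕ) (p : Fin k → ℝ) (ρ : Fin k → Matrix d d ℂ), (∀ a, 0 ≤ p a) ∧ (∑ a, p a = 1) ∧
      (∀ a, IsState (ρ a)) ∧ v = hol p (fun a => Φ (ρ a)) / Real.log 2 := by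
  obtain ⟨k, p, ρ, hp, hp1, hρ, rfl⟩ := hv
  exact ⟨k, p, ρ, hp, hp1, hρ, hol_vnEntropy p fun a => (hΦ _ (hρ a)).1.1⟩

lemma isState_convex {ι : Type*} [Fintype ι] {p : ι → ℝ} {ρ : ι → Matrix d d ℂ}
    (hp : ∀ a, 0 ≤ p a) (hp1 : ∑ a, p a = 1) (hρ : ∀ a, IsState (ρ a)) :
    IsState (∑ a, (p a : ℂ) • ρ a) := by
  refine ⟨posSemidef_sum _ fun a _ => (hρ a).1.smul (Complex.zero_le_real.2 (hp a)), ?_⟩
  simp only [trace_sum, trace_smul, (hρ _).2, smul_eq_mul, mul_one, ← Complex.ofReal_sum, hp1,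
    Complex.ofReal_one]

lemma exists_isState (d : Type*) [Fintype d] [DecidableEq d] [Nonempty d] :
    ∃ σ : Matrix d d ℂ, IsState σ := by
  obtain ⟨x⟩ := ‹Nonempty d›
  refine ⟨diagonal (Pi.single x 1), posSemidef_diagonal_iff.2 fun i => ?_, ?_⟩
  · by_cases h : i = x
    · simp [h]
    · simp [Pi.single_eq_of_ne h]
  · simp [trace_diagonal, Finset.sum_pi_single']

/-- A positive semidefinite matrix is a nonnegative multiple of a state. -/
lemma exists_state_smul [Nonempty d] {P : Matrix d d ℂ} (hP : P.PosSemidef) :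
    ∃ σ : Matrix d d ℂ, IsState σ ∧ P = (P.trace.re : ℂ) • σ := by
  have ht := Complex.le_def.1 hP.trace_nonneg
  simp only [Complex.zero_re, Complex.zero_im] at ht
  have hT : P.trace = (P.trace.re : ℂ) := Complex.ext (by simp) (by simp [← ht.2])
  rcases ht.1.eq_or_lt with h | h
  · obtain ⟨σ, hσ⟩ := exists_isState d
    refine ⟨σ, hσ, ?_⟩
    rw [← h]
    rw [← h] at hT
    simp only [Complex.ofReal_zero] at hT ⊢
    rw [zero_smul, hP.trace_eq_zero_iff.1 hT]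
  · refine ⟨((P.trace.re⁻¹ : ℝ) : ℂ) • P,
      ⟨hP.smul (Complex.zero_le_real.2 (inv_nonneg.2 h.le)), ?_⟩, ?_⟩
    · rw [trace_smul, smul_eq_mul]
      conv_lhs => arg 2; rw [hT]
      rw [← Complex.ofReal_mul, inv_mul_cancel₀ h.ne', Complex.ofReal_one]
    · rw [smul_smul, ← Complex.ofReal_mul, mul_inv_cancel₀ h.ne', Complex.ofReal_one, one_smul]

lemma Sent_kronecker {A : Matrix d d ℂ} {B : Matrix d' d' ℂ} (hA : A.IsHermitian)
    (hB : B.IsHermitian) :
    Sent (A ⊗ₖ B) = B.trace.re * Sent A + A.trace.re * Sent B := by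
  have hU : ((hA.eigenvectorUnitary : Matrix d d ℂ) ⊗ₖ (hB.eigenvectorUnitary : Matrix d' d' ℂ))ᴴ
      * ((hA.eigenvectorUnitary : Matrix d d ℂ) ⊗ₖ (hB.eigenvectorUnitary : Matrix d' d' ℂ))
        = 1 := by
    rw [conjTranspose_kronecker, ← mul_kronecker_mul, eigU_left, eigU_left, one_kronecker_one]
  have h : A ⊗ₖ B = conjDiag
      ((hA.eigenvectorUnitary : Matrix d d ℂ) ⊗ₖ (hB.eigenvectorUnitary : Matrix d' d' ℂ))
      (fun x => hA.eigenvalues x.1 * hB.eigenvalues x.2) := by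
    conv_lhs => rw [← herm_eq_conjDiag hA, ← herm_eq_conjDiag hB]
    simp only [conjDiag, mul_kronecker_mul, conjTranspose_kronecker,
      diagonal_kronecker_diagonal, Complex.ofReal_mul]
  rw [h, Sent_conjDiag hU, Fintype.sum_prod_type, Sent_eq_sum hA, Sent_eq_sum hB,
    trace_re_eq_sum hA, trace_re_eq_sum hB, Finset.mul_sum (a := ∑ i, hB.eigenvalues i)]
  simp only [Real.negMulLog_mul, Finset.sum_add_distrib, Finset.sum_mul, ← Finset.mul_sum]

variable {γ ν : ℝ}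

lemma gadc_eq_kraus (hγ : γ ∈ Set.Icc (0 : ℝ) 1) (hν : ν ∈ Set.Icc (0 : ℝ) 1)
    (ρ : Matrix (Fin 2) (Fin 2) ℂ) :
    gadc γ ν ρ = ∑ l, kraus γ ν l * ρ * (kraus γ ν l)ᴴ := by
  ext i j
  rw [gadc_apply]
  simp only [gadc_single hγ hν, Matrix.sum_apply, Matrix.mul_apply, conjTranspose_apply,
    Complex.star_def, Fin.sum_univ_two, Finset.sum_mul, ← Finset.sum_add_distrib]
  exact Finset.sum_congr rfl fun l _ => by ring

lemma gadc_trace (ρ : Matrix (Fin 2) (Fin 2) ℂ) : (gadc γ ν ρ).trace = ρ.trace := by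
  simp [gadc, trace_fin_two]
  ring

lemma isState_gadc (hγ : γ ∈ Set.Icc (0 : ℝ) 1) (hν : ν ∈ Set.Icc (0 : ℝ) 1)
    {ρ : Matrix (Fin 2) (Fin 2) ℂ} (h : IsState ρ) : IsState (gadc γ ν ρ) := by
  refine ⟨?_, by rw [gadc_trace, h.2]⟩
  rw [gadc_eq_kraus hγ hν]
  exact posSemidef_sum _ fun l _ => h.1.mul_mul_conjTranspose_same _

lemma Sent_le_log_two {A : Matrix (Fin 2) (Fin 2) ℂ} (hA : IsState A) : Sent A ≤ Real.log 2 := by
  have ht : A.trace.re = 1 := by rw [hA.2, Complex.one_re]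
  rw [trace_re_eq_sum hA.1.1, Fin.sum_univ_two] at ht
  rw [Sent_eq_sum hA.1.1, Fin.sum_univ_two, show hA.1.1.eigenvalues 1 = 1 - hA.1.1.eigenvalues 0 by
    linarith, ← Real.binEntropy_eq_negMulLog_add_negMulLog_one_sub]
  exact Real.binEntropy_le_log_two

lemma bddAbove_holevoSet_gadc (hγ : γ ∈ Set.Icc (0 : ℝ) 1) (hν : ν ∈ Set.Icc (0 : ℝ) 1) :
    BddAbove (holevoSet (gadc γ ν)) := by
  refine ⟨1, fun v hv => ?_⟩
  obtain ⟨k, p, ρ, hp, hp1, hρ, rfl⟩ :=
    exists_of_mem_holevoSet (fun ρ h => isState_gadc hγ hν h) hv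
  rw [div_le_one (Real.log_pos one_lt_two)]
  have h1 := Sent_le_log_two (isState_convex hp hp1 fun a => isState_gadc hγ hν (hρ a))
  have h2 : 0 ≤ ∑ a, p a * Sent (gadc γ ν (ρ a)) := Finset.sum_nonneg fun a _ =>
    mul_nonneg (hp a) (Sent_nonneg (isState_gadc hγ hν (hρ a)).1
      (by rw [(isState_gadc hγ hν (hρ a)).2, Complex.one_re]))
  rw [hol]
  linarith

lemma nonempty_holevoSet_gadc (hγ : γ ∈ Set.Icc (0 : ℝ) 1) (hν : ν ∈ Set.Icc (0 : ℝ) 1) :
    (holevoSet (gadc γ ν)).Nonempty := by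
  obtain ⟨σ, hσ⟩ := exists_isState (Fin 2)
  exact ⟨_, mem_holevoSet (fun ρ h => isState_gadc hγ hν h) (ι := Unit) (p := fun _ => 1)
    (ρ := fun _ => σ) (fun _ => zero_le_one) (by simp) fun _ => hσ⟩

/-- The scalar Holevo quantity is attained by an ensemble of pure states of one channel use. -/
lemma scalar_le_holevo (hγ : γ ∈ Set.Icc (0 : ℝ) 1) (hν : ν ∈ Set.Icc (0 : ℝ) 1) {ι : Type*}
    [Fintype ι] {p a b : ι → ℝ} (hp : ∀ k, 0 ≤ p k) (hp1 : ∑ k, p k = 1) (ha : ∀ k, 0 ≤ a k)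
    (hb : ∀ k, 0 ≤ b k) (hab : ∀ k, a k + b k = 1) :
    Real.negMulLog (∑ k, p k * ((1 - γ * ν) * a k + γ * (1 - ν) * b k))
      + Real.negMulLog (∑ k, p k * (γ * ν * a k + (1 - γ + γ * ν) * b k))
      - ∑ k, p k * gfun γ ν (a k) (b k) ≤ holevo (gadc γ ν) * Real.log 2 := by
  let c : ι ⊕ ι → ℝ := Sum.elim (fun k => Real.sqrt (a k * b k)) (fun k => -Real.sqrt (a k * b k))
  let A : ι ⊕ ι → ℝ := Sum.elim a a
  let B : ι ⊕ ι → ℝ := Sum.elim b b
  let W : ι ⊕ ι → ℝ := Sum.elim (fun k => p k / 2) (fun k => p k / 2)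
  let ψ : ι ⊕ ι → Matrix (Fin 2) (Fin 2) ℂ := fun x => !![(A x : ℂ), (c x : ℂ); (c x : ℂ), (B x : ℂ)]
  have hcc : ∀ x, c x * c x = A x * B x := by
    rintro (k | k) <;> simp [c, A, B, Real.mul_self_sqrt (mul_nonneg (ha k) (hb k))]
  have hψ : ∀ x, IsState (ψ x) := by
    intro x
    refine ⟨?_, ?_⟩
    · obtain ⟨s, t, hs, ht, hst⟩ : ∃ s t : ℝ, s * s = A x ∧ t * t = B x ∧ s * t = c x := by
        rcases x with k | k
        · exact ⟨Real.sqrt (a k), Real.sqrt (b k), Real.mul_self_sqrt (ha k),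
            Real.mul_self_sqrt (hb k), (Real.sqrt_mul (ha k) _).symm⟩
        · refine ⟨Real.sqrt (a k), -Real.sqrt (b k), Real.mul_self_sqrt (ha k), ?_, ?_⟩
          · rw [neg_mul_neg]; exact Real.mul_self_sqrt (hb k)
          · rw [mul_neg, ← Real.sqrt_mul (ha k)]; rfl
      have h := posSemidef_vecMulVec_self_star ![(s : ℂ), (t : ℂ)]
      convert h using 1
      ext i j
      fin_cases i <;> fin_cases j <;>
        simp [ψ, vecMulVec_apply, ← Complex.ofReal_mul, hs, ht, hst, mul_comm t s]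
    · rcases x with k | k <;>
        simp [ψ, A, B, trace_fin_two, ← Complex.ofReal_add, hab k]
  have hW : ∀ x, 0 ≤ W x := by rintro (k | k) <;> simpa [W] using by linarith [hp k]
  have hW1 : ∑ x, W x = 1 := by
    simp [W, Fintype.sum_sum_type, ← Finset.sum_add_distrib, hp1]
  have hmem := mem_holevoSet (fun ρ h => isState_gadc hγ hν h) hW hW1 hψ
  have hle := le_csSup (bddAbove_holevoSet_gadc hγ hν) hmem
  rw [div_le_iff₀ (Real.log_pos one_lt_two)] at hle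
  refine le_trans (le_of_eq ?_) hle
  rw [hol]
  have hstate : ∀ x, Sent (gadc γ ν (ψ x)) = gfun γ ν (A x) (B x) := by
    intro x
    rw [Sent_fin_two (isState_gadc hγ hν (hψ x)).1.1, gadc_trace, gfun, det_fin_two]
    congr 1
    · simp [ψ, trace_fin_two]
    · have hs : Real.sqrt (1 - γ) * Real.sqrt (1 - γ) = 1 - γ :=
        Real.mul_self_sqrt (by linarith [hγ.2])
      simp [gadc, ψ, Complex.mul_re, Complex.mul_im]
      linear_combination (c x * c x) * hs + (1 - γ) * hcc x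
  have havg : ∑ x, (W x : ℂ) • gadc γ ν (ψ x) = diagonal (fun i =>
      ((![∑ k, p k * ((1 - γ * ν) * a k + γ * (1 - ν) * b k),
        ∑ k, p k * (γ * ν * a k + (1 - γ + γ * ν) * b k)] i : ℝ) : ℂ)) := by
    rw [Fintype.sum_sum_type, ← Finset.sum_add_distrib]
    ext i j
    fin_cases i <;> fin_cases j <;>
      simp [W, ψ, A, B, c, gadc, Matrix.sum_apply, diagonal] <;>
      first
        | (refine Finset.sum_congr rfl fun k _ => ?_; ring)
        | (refine Finset.sum_eq_zero fun k _ => ?_; ring)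
  rw [havg, Sent_diagonal, Fin.sum_univ_two, Fintype.sum_sum_type]
  simp [hstate, W, A, B, ← Finset.sum_add_distrib]
  refine Finset.sum_congr rfl fun k _ => ?_
  ring

lemma blk_diag_posSemidef {n : ℕ} {ρ : Matrix (Fin (n + 1) → Fin 2) (Fin (n + 1) → Fin 2) ℂ}
    (h : ρ.PosSemidef) (a : Fin 2) : (blk ρ a a).PosSemidef :=
  h.submatrix (fun x : Fin n → Fin 2 => (Fin.cons a x : Fin (n + 1) → Fin 2))

lemma blk_trace_add {n : ℕ} (ρ : Matrix (Fin (n + 1) → Fin 2) (Fin (n + 1) → Fin 2) ℂ) :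
    (blk ρ 0 0).trace + (blk ρ 1 1).trace = ρ.trace := by
  simp only [Matrix.trace, Matrix.diag_apply, blk, Matrix.of_apply]
  rw [← (splitEquiv n).sum_comp, Fintype.sum_sum_type]
  rfl

lemma blk_conjTranspose {n : ℕ} {ρ : Matrix (Fin (n + 1) → Fin 2) (Fin (n + 1) → Fin 2) ℂ}
    (h : ρ.IsHermitian) (a b : Fin 2) : (blk ρ a b)ᴴ = blk ρ b a := by
  ext x y
  simp only [conjTranspose_apply, blk, Matrix.of_apply]
  exact h.apply _ _

/-- The output blocks on one more site, for a state on `n + 1` qubits. -/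
lemma output_blocks (hγ : γ ∈ Set.Icc (0 : ℝ) 1) (hν : ν ∈ Set.Icc (0 : ℝ) 1) (n : ℕ)
    {ρ : Matrix (Fin (n + 1) → Fin 2) (Fin (n + 1) → Fin 2) ℂ} (h : IsState ρ) :
    ∃ (σ₀ σ₁ : Matrix (Fin n → Fin 2) (Fin n → Fin 2) ℂ) (a b : ℝ),
      0 ≤ a ∧ 0 ≤ b ∧ a + b = 1 ∧ IsState σ₀ ∧ IsState σ₁ ∧
      blk ρ 0 0 = (a : ℂ) • σ₀ ∧ blk ρ 1 1 = (b : ℂ) • σ₁ ∧
      a * Sent (tensorPow (gadc γ ν) n σ₀) + b * Sent (tensorPow (gadc γ ν) n σ₁) + gfun γ ν a b
        ≤ Sent (tensorPow (gadc γ ν) (n + 1) ρ) := by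
  have h0 := blk_diag_posSemidef h.1 0
  have h1 := blk_diag_posSemidef h.1 1
  obtain ⟨σ₀, hσ₀, e0⟩ := exists_state_smul h0
  obtain ⟨σ₁, hσ₁, e1⟩ := exists_state_smul h1
  refine ⟨σ₀, σ₁, _, _, (Complex.le_def.1 h0.trace_nonneg).1, (Complex.le_def.1 h1.trace_nonneg).1,
    ?_, hσ₀, hσ₁, e0, e1, ?_⟩
  · rw [← Complex.add_re, blk_trace_add, h.2, Complex.one_re]
  · set T := tensorPow (gadc γ ν) n
    have hM : (fromBlocks (T (blk ρ 0 0)) (T (blk ρ 0 1)) (T (blk ρ 1 0))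
        (T (blk ρ 1 1))).PosSemidef := by
      refine tensorPow_fromBlocks_posSemidef hγ hν n ?_
      rw [← submatrix_splitEquiv]
      exact h.1.submatrix _
    have hC : (T (blk ρ 0 1))ᴴ = T (blk ρ 1 0) := (isHermitian_fromBlocks_iff.1 hM.1).2.1
    rw [← hC] at hM
    have hs := one_site hγ hν hM
    rw [hC] at hs
    rw [← Sent_reindex (splitEquiv n).symm (tensorPow (gadc γ ν) (n + 1) ρ), reindex_apply,
      Equiv.symm_symm, tensorPow_blocks]
    refine le_trans (le_of_eq ?_) hs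
    have eS : ∀ (x : ℝ) (σ : Matrix (Fin n → Fin 2) (Fin n → Fin 2) ℂ), IsState σ →
        Sent (T ((x : ℂ) • σ)) = x * Sent (T σ) + Real.negMulLog x := by
      intro x σ hσ
      have hT := isState_tensorPow hγ hν n hσ
      show Sent (tensorPow (gadc γ ν) n ((x : ℂ) • σ)) = _
      rw [tensorPow_smul, Sent_smul hT.1.1, hT.2, Complex.one_re, mul_one]
    have et : ∀ a b, (T (blk ρ a b)).trace = (blk ρ a b).trace := fun a b => tensorPow_trace n _
    have s0 : Sent (T (blk ρ 0 0)) = (blk ρ 0 0).trace.re * Sent (T σ₀)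
        + Real.negMulLog (blk ρ 0 0).trace.re := by
      conv_lhs => rw [e0]
      exact eS _ σ₀ hσ₀
    have s1 : Sent (T (blk ρ 1 1)) = (blk ρ 1 1).trace.re * Sent (T σ₁)
        + Real.negMulLog (blk ρ 1 1).trace.re := by
      conv_lhs => rw [e1]
      exact eS _ σ₁ hσ₁
    rw [s0, s1, et, et]
    ring

lemma Sent_of_unique [Unique d] {A : Matrix d d ℂ} (hA : IsState A) : Sent A = 0 := by
  have ht : A.trace.re = 1 := by rw [hA.2, Complex.one_re]
  rw [trace_re_eq_sum hA.1.1, Fintype.sum_unique] at ht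
  rw [Sent_eq_sum hA.1.1, Fintype.sum_unique, ht, Real.negMulLog_one]

/-- Upper bound by induction on the number of channel uses, from any bound on the scalar
quantity. -/
lemma hol_tensorPow_le' (hγ : γ ∈ Set.Icc (0 : ℝ) 1) (hν : ν ∈ Set.Icc (0 : ℝ) 1) {M : ℝ}
    (hM : ∀ (ι : Type) [Fintype ι] (p a b : ι → ℝ), (∀ k, 0 ≤ p k) → (∑ k, p k = 1) →
      (∀ k, 0 ≤ a k) → (∀ k, 0 ≤ b k) → (∀ k, a k + b k = 1) →
      Real.negMulLog (∑ k, p k * ((1 - γ * ν) * a k + γ * (1 - ν) * b k))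
        + Real.negMulLog (∑ k, p k * (γ * ν * a k + (1 - γ + γ * ν) * b k))
        - ∑ k, p k * gfun γ ν (a k) (b k) ≤ M) (n : ℕ) :
    ∀ (ι : Type) [Fintype ι] (p : ι → ℝ) (ρ : ι → Matrix (Fin n → Fin 2) (Fin n → Fin 2) ℂ),
      (∀ k, 0 ≤ p k) → (∑ k, p k = 1) → (∀ k, IsState (ρ k)) →
        hol p (fun k => tensorPow (gadc γ ν) n (ρ k))
          ≤ n * M := by
  induction n with
  | zero =>
    intro ι _ p ρ hp hp1 hρ
    have hs := fun k => isState_tensorPow hγ hν 0 (hρ k)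
    rw [hol, Sent_of_unique (isState_convex hp hp1 hs)]
    simp [Sent_of_unique (hs _)]
  | succ n ih =>
    intro ι _ p ρ hp hp1 hρ
    choose σ₀ σ₁ a b ha hb hab hσ₀ hσ₁ e0 e1 hlow using
      fun k => output_blocks hγ hν n (hρ k)
    set T := tensorPow (gadc γ ν) n
    let w : ι ⊕ ι → ℝ := Sum.elim (fun k => p k * a k) (fun k => p k * b k)
    let σ : ι ⊕ ι → Matrix (Fin n → Fin 2) (Fin n → Fin 2) ℂ := Sum.elim σ₀ σ₁
    have hw : ∀ x, 0 ≤ w x := by
      rintro (k | k) <;> simp [w, mul_nonneg (hp k), ha k, hb k]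
    have hw1 : ∑ x, w x = 1 := by
      simp [w, Fintype.sum_sum_type, ← Finset.sum_add_distrib, ← mul_add, hab, hp1]
    have hσ : ∀ x, IsState (σ x) := by rintro (k | k) <;> simp [σ, hσ₀, hσ₁]
    have hprev := ih (ι ⊕ ι) w σ hw hw1 hσ
    have hone := hM ι p a b hp hp1 ha hb hab
    set P := ∑ k, (p k : ℂ) • (((1 - γ * ν : ℝ) : ℂ) • T (blk (ρ k) 0 0)
      + ((γ * (1 - ν) : ℝ) : ℂ) • T (blk (ρ k) 1 1)) with hP
    set R := ∑ k, (p k : ℂ) • (((γ * ν : ℝ) : ℂ) • T (blk (ρ k) 0 0)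
      + ((1 - γ + γ * ν : ℝ) : ℂ) • T (blk (ρ k) 1 1)) with hR
    set C := ∑ k, (p k : ℂ) • (((Real.sqrt (1 - γ) : ℝ) : ℂ) • T (blk (ρ k) 0 1)) with hC
    set Y := ∑ k, (p k : ℂ) • tensorPow (gadc γ ν) (n + 1) (ρ k) with hY
    have hYs : IsState Y := isState_convex hp hp1 fun k => isState_tensorPow hγ hν _ (hρ k)
    obtain ⟨D, hYb⟩ : ∃ D, Y.submatrix (splitEquiv n) (splitEquiv n) = fromBlocks P C D R := by
      refine ⟨∑ k, (p k : ℂ) • (((Real.sqrt (1 - γ) : ℝ) : ℂ) • T (blk (ρ k) 1 0)), ?_⟩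
      ext i j
      have hk : ∀ k, tensorPow (gadc γ ν) (n + 1) (ρ k) (splitEquiv n i) (splitEquiv n j) = _ :=
        fun k => congr_fun (congr_fun (tensorPow_blocks (γ := γ) (ν := ν) n (ρ k)) i) j
      rw [submatrix_apply, hY, Matrix.sum_apply]
      simp only [Matrix.smul_apply, hk]
      rcases i with i | i <;> rcases j with j | j <;>
        simp only [hP, hR, hC, T, fromBlocks_apply₁₁, fromBlocks_apply₁₂, fromBlocks_apply₂₁,
          fromBlocks_apply₂₂, Matrix.sum_apply, Matrix.smul_apply]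
    have hYp : (fromBlocks P C D R).PosSemidef := hYb ▸ hYs.1.submatrix _
    have hD : Cᴴ = D := (isHermitian_fromBlocks_iff.1 hYp.1).2.1
    subst hD
    have eT : ∀ k a' b', (T (blk (ρ k) a' b')).trace = (blk (ρ k) a' b').trace :=
      fun k a' b' => tensorPow_trace n _
    have tPa : ∀ k, (blk (ρ k) 0 0).trace.re = a k := fun k => by
      rw [e0 k, trace_smul, (hσ₀ k).2]; simp
    have tPb : ∀ k, (blk (ρ k) 1 1).trace.re = b k := fun k => by
      rw [e1 k, trace_smul, (hσ₁ k).2]; simp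
    have htP : P.trace.re = ∑ k, p k * ((1 - γ * ν) * a k + γ * (1 - ν) * b k) := by
      simp [hP, trace_sum, trace_add, trace_smul, eT, Complex.re_sum, Complex.mul_re, tPa, tPb, mul_add]
    have htR : R.trace.re = ∑ k, p k * (γ * ν * a k + (1 - γ + γ * ν) * b k) := by
      simp [hR, trace_sum, trace_add, trace_smul, eT, Complex.re_sum, Complex.mul_re, tPa, tPb, mul_add]
    have hPR : P + R = ∑ x, (w x : ℂ) • T (σ x) := by
      rw [hP, hR, ← Finset.sum_add_distrib, Fintype.sum_sum_type, ← Finset.sum_add_distrib]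
      refine Finset.sum_congr rfl fun k _ => ?_
      simp only [T, w, σ, Sum.elim_inl, Sum.elim_inr]
      rw [e0 k, e1 k, tensorPow_smul, tensorPow_smul]
      push_cast
      module
    have ht1 : P.trace.re + R.trace.re = 1 := by
      rw [htP, htR, ← Finset.sum_add_distrib]
      refine Eq.trans (Finset.sum_congr rfl fun k _ => ?_) hp1
      linear_combination p k * hab k
    have hsub := Sent_subadd hYp ht1
    rw [← hYb, ← Equiv.symm_symm (splitEquiv n), ← reindex_apply, Sent_reindex, htP, htR, hPR]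
      at hsub
    have hsum := Finset.sum_le_sum (s := Finset.univ)
      (fun k _ => mul_le_mul_of_nonneg_left (hlow k) (hp k))
    rw [hol] at hprev ⊢
    simp only [Fintype.sum_sum_type, w, σ, Sum.elim_inl, Sum.elim_inr] at hprev hsub
    simp only [mul_add, Finset.sum_add_distrib, ← mul_assoc] at hsum
    rw [Nat.cast_succ, add_one_mul]
    linarith

/-- Upper bound by the one-use capacity. -/
lemma hol_tensorPow_le (hγ : γ ∈ Set.Icc (0 : ℝ) 1) (hν : ν ∈ Set.Icc (0 : ℝ) 1) (n : ℕ) :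
    ∀ (ι : Type) [Fintype ι] (p : ι → ℝ) (ρ : ι → Matrix (Fin n → Fin 2) (Fin n → Fin 2) ℂ),
      (∀ k, 0 ≤ p k) → (∑ k, p k = 1) → (∀ k, IsState (ρ k)) →
        hol p (fun k => tensorPow (gadc γ ν) n (ρ k))
          ≤ n * (holevo (gadc γ ν) * Real.log 2) :=
  hol_tensorPow_le' hγ hν (fun _ι _inst _p _a _b hp hp1 ha hb hab =>
    scalar_le_holevo hγ hν hp hp1 ha hb hab) n

/-- Product ensembles. -/
lemma mul_mem_holevoSet (hγ : γ ∈ Set.Icc (0 : ℝ) 1) (hν : ν ∈ Set.Icc (0 : ℝ) 1) {v : ℝ}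
    (hv : v ∈ holevoSet (gadc γ ν)) (n : ℕ) :
    (n : ℝ) * v ∈ holevoSet (tensorPow (gadc γ ν) n) := by
  induction n with
  | zero =>
    obtain ⟨σ, hσ⟩ := exists_isState (Fin 0 → Fin 2)
    have := mem_holevoSet (fun ρ h => isState_tensorPow hγ hν 0 h) (ι := Unit) (p := fun _ => 1)
      (ρ := fun _ => σ) (fun _ => zero_le_one) (by simp) fun _ => hσ
    convert this using 1
    simp [hol]
  | succ n ih =>
    obtain ⟨k, p, ρ, hp, hp1, hρ, hV⟩ :=
      exists_of_mem_holevoSet (fun ρ h => isState_gadc hγ hν h) hv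
    obtain ⟨l, q, σ, hq, hq1, hσ, hN⟩ :=
      exists_of_mem_holevoSet (fun ρ h => isState_tensorPow hγ hν n h) ih
    set e := Fin.consEquiv fun _ : Fin (n + 1) => Fin 2
    let τ : Fin k × Fin l → Matrix (Fin (n + 1) → Fin 2) (Fin (n + 1) → Fin 2) ℂ :=
      fun x => reindex e e (ρ x.1 ⊗ₖ σ x.2)
    have hτ : ∀ x, IsState (τ x) := by
      intro x
      refine ⟨((hρ x.1).1.kronecker (hσ x.2).1).submatrix _, ?_⟩
      show (reindex e e (ρ x.1 ⊗ₖ σ x.2)).trace = 1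
      have ht : (reindex e e (ρ x.1 ⊗ₖ σ x.2)).trace = (ρ x.1 ⊗ₖ σ x.2).trace :=
        e.symm.sum_comp (fun i => (ρ x.1 ⊗ₖ σ x.2) i i)
      rw [ht, trace_kronecker, (hρ x.1).2, (hσ x.2).2, mul_one]
    have hpq1 : ∑ x : Fin k × Fin l, p x.1 * q x.2 = 1 := by
      rw [Fintype.sum_prod_type]
      simp [← Finset.mul_sum, hp1, hq1]
    have := mem_holevoSet (fun ρ h => isState_tensorPow hγ hν (n + 1) h)
      (p := fun x : Fin k × Fin l => p x.1 * q x.2) (ρ := τ)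
      (fun x => mul_nonneg (hp _) (hq _)) hpq1 hτ
    convert this using 1
    rw [Nat.cast_succ, add_one_mul, hN, hV, ← add_div]
    congr 1
    simp only [hol, τ, tensorPow_kronecker, e]
    set A := fun a => gadc γ ν (ρ a)
    set B := fun b => tensorPow (gadc γ ν) n (σ b)
    have hA : ∀ a, IsState (A a) := fun a => isState_gadc hγ hν (hρ a)
    have hB : ∀ b, IsState (B b) := fun b => isState_tensorPow hγ hν n (hσ b)
    have hsum : (∑ a, (p a : ℂ) • A a) ⊗ₖ (∑ b, (q b : ℂ) • B b)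
        = ∑ x : Fin k × Fin l, ((p x.1 * q x.2 : ℝ) : ℂ) • (A x.1 ⊗ₖ B x.2) := by
      ext i j
      simp only [kroneckerMap_apply, Matrix.sum_apply, Matrix.smul_apply, smul_eq_mul,
        Complex.ofReal_mul, Fintype.sum_prod_type, Finset.sum_mul_sum]
      exact Finset.sum_congr rfl fun a _ => Finset.sum_congr rfl fun b _ => by ring
    have havg := congrArg (reindex e e) hsum
    have hre : ∀ f : Fin k × Fin l → Matrix (Fin 2 × (Fin n → Fin 2)) (Fin 2 × (Fin n → Fin 2)) ℂ,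
        reindex e e (∑ x, ((p x.1 * q x.2 : ℝ) : ℂ) • f x)
          = ∑ x, ((p x.1 * q x.2 : ℝ) : ℂ) • reindex e e (f x) := by
      intro f
      ext i j
      simp [Matrix.sum_apply]
    rw [hre] at havg
    rw [← havg, Sent_reindex, Sent_kronecker (isState_convex hp hp1 hA).1.1
      (isState_convex hq hq1 hB).1.1, (isState_convex hp hp1 hA).2, (isState_convex hq hq1 hB).2]
    simp only [A, B] at hA hB ⊢
    simp only [Sent_reindex, Sent_kronecker (hA _).1.1 (hB _).1.1, (hA _).2, (hB _).2,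
      Complex.one_re, one_mul, Fintype.sum_prod_type, mul_add, Finset.sum_add_distrib]
    simp only [← Finset.sum_mul, ← Finset.mul_sum, hq1, hp1, mul_one, one_mul, mul_assoc]
    ring

theorem holevo_tensorPow (hγ : γ ∈ Set.Icc (0 : ℝ) 1) (hν : ν ∈ Set.Icc (0 : ℝ) 1) (n : ℕ) :
    BddAbove (holevoSet (tensorPow (gadc γ ν) n)) ∧
      holevo (tensorPow (gadc γ ν) n) = n * holevo (gadc γ ν) := by
  have hub : ∀ v ∈ holevoSet (tensorPow (gadc γ ν) n), v ≤ n * holevo (gadc γ ν) := by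
    intro v hv
    obtain ⟨k, p, ρ, hp, hp1, hρ, rfl⟩ :=
      exists_of_mem_holevoSet (fun ρ h => isState_tensorPow hγ hν n h) hv
    rw [div_le_iff₀ (Real.log_pos one_lt_two), mul_assoc]
    exact hol_tensorPow_le hγ hν n (Fin k) p ρ hp hp1 hρ
  have hbdd : BddAbove (holevoSet (tensorPow (gadc γ ν) n)) := ⟨_, hub⟩
  obtain ⟨v₀, hv₀⟩ := nonempty_holevoSet_gadc hγ hν
  refine ⟨hbdd, le_antisymm (csSup_le ⟨_, mul_mem_holevoSet hγ hν hv₀ n⟩ hub) ?_⟩
  rcases Nat.eq_zero_or_pos n with hn | hn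
  · subst hn
    simp only [Nat.cast_zero, zero_mul]
    exact le_csSup_of_le hbdd (mul_mem_holevoSet hγ hν hv₀ 0) (by simp)
  · have hn' : (0 : ℝ) < n := Nat.cast_pos.2 hn
    rw [mul_comm, ← le_div_iff₀ hn']
    refine csSup_le ⟨v₀, hv₀⟩ fun v hv => ?_
    rw [le_div_iff₀ hn', mul_comm]
    exact le_csSup hbdd (mul_mem_holevoSet hγ hν hv n)

theorem capacity_eq_holevo (hγ : γ ∈ Set.Icc (0 : ℝ) 1) (hν : ν ∈ Set.Icc (0 : ℝ) 1) :
    capacity (gadc γ ν) = holevo (gadc γ ν) := by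
  have h : ∀ n : ℕ, holevo (tensorPow (gadc γ ν) (n + 1)) / ((n + 1 : ℕ) : ℝ)
      = holevo (gadc γ ν) := fun n => by
    rw [(holevo_tensorPow hγ hν (n + 1)).2, mul_div_cancel_left₀]
    positivity
  simp only [capacity, h, ciSup_const]

end Vale.Agent.P358
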