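import Vale.Agent.P358.LocalLemma

/-!
Tensor powers of the generalized amplitude-damping channel: Kraus form and block recursion.
-/

open Matrix
open scoped ComplexOrder ComplexConjugate Kronecker

namespace Vale.Agent.P358

/-- Kraus operators of the channel. -/
noncomputable def kraus (γ ν : ℝ) : Fin 4 → Matrix (Fin 2) (Fin 2) ℂ :=
  ![!![((Real.sqrt (1 - γ * ν) : ℝ) : ℂ), 0;
      0, ((Real.sqrt (1 - γ) / Real.sqrt (1 - γ * ν) : ℝ) : ℂ)],
    !![0, 0; 0, ((Real.sqrt (1 - γ + γ * ν - (1 - γ) / (1 - γ * ν)) : ℝ) : ℂ)],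
    !![0, 0; ((Real.sqrt (γ * ν) : ℝ) : ℂ), 0],
    !![0, ((Real.sqrt (γ * (1 - ν)) : ℝ) : ℂ); 0, 0]]

/-- Products of Kraus operators. -/
noncomputable def krausPow (γ ν : ℝ) (n : ℕ) (k : Fin n → Fin 4) :
    Matrix (Fin n → Fin 2) (Fin n → Fin 2) ℂ :=
  Matrix.of fun x a => ∏ i, kraus γ ν (k i) (x i) (a i)

variable {γ ν : ℝ}

lemma gadc_single (hγ : γ ∈ Set.Icc (0 : ℝ) 1) (hν : ν ∈ Set.Icc (0 : ℝ) 1) (a b i j : Fin 2) :
    gadc γ ν (Matrix.single a b 1) i j = ∑ l, kraus γ ν l i a * conj (kraus γ ν l j b) := by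
  obtain ⟨hp, hα, hβ, hr, hce, hcc, -⟩ := kraus_facts hγ hν
  have h1 : ∀ x y z : ℝ, x * y = z → (x : ℂ) * (y : ℂ) = (z : ℂ) := fun x y z h => by
    rw [← Complex.ofReal_mul, h]
  have e1 := h1 _ _ _ (Real.mul_self_sqrt hp)
  have e2 := h1 _ _ _ (Real.mul_self_sqrt hα)
  have e3 := h1 _ _ _ (Real.mul_self_sqrt hβ)
  have e4 := h1 _ _ _ hcc
  have e5 := h1 _ _ _ (Real.mul_self_sqrt hr)
  have e6 := h1 _ _ _ hce
  push_cast at e1 e2 e3 e4 e5 e6
  fin_cases a <;> fin_cases b <;> fin_cases i <;> fin_cases j <;>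
    simp [gadc, kraus, Fin.sum_univ_four, Matrix.single_apply, Complex.conj_ofReal] <;>
    first
      | linear_combination -e1
      | linear_combination -e2
      | linear_combination -e3
      | linear_combination -e4 - e5
      | linear_combination -e6

lemma gadc_apply (ρ : Matrix (Fin 2) (Fin 2) ℂ) (i j : Fin 2) :
    gadc γ ν ρ i j = ∑ a, ∑ b, gadc γ ν (Matrix.single a b 1) i j * ρ a b := by
  fin_cases i <;> fin_cases j <;>
    simp [gadc, Fin.sum_univ_two, Matrix.single_apply]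

lemma tensorPow_eq_kraus (hγ : γ ∈ Set.Icc (0 : ℝ) 1) (hν : ν ∈ Set.Icc (0 : ℝ) 1) (n : ℕ)
    (ρ : Matrix (Fin n → Fin 2) (Fin n → Fin 2) ℂ) :
    tensorPow (gadc γ ν) n ρ = ∑ k, krausPow γ ν n k * ρ * (krausPow γ ν n k)ᴴ := by
  ext x y
  simp only [tensorPow, Matrix.of_apply, gadc_single hγ hν, Fintype.prod_sum, Matrix.sum_apply,
    Matrix.mul_apply, Finset.sum_mul]
  conv_rhs =>
    rw [Finset.sum_comm]
    enter [2, b]
    rw [Finset.sum_comm]
  conv_lhs => rw [Finset.sum_comm]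
  refine Finset.sum_congr rfl fun b _ => Finset.sum_congr rfl fun a _ =>
    Finset.sum_congr rfl fun k _ => ?_
  simp only [krausPow, conjTranspose_apply, Matrix.of_apply, Complex.star_def, map_prod,
    Finset.prod_mul_distrib]
  ring

lemma tensorPow_posSemidef (hγ : γ ∈ Set.Icc (0 : ℝ) 1) (hν : ν ∈ Set.Icc (0 : ℝ) 1) (n : ℕ)
    {ρ : Matrix (Fin n → Fin 2) (Fin n → Fin 2) ℂ} (h : ρ.PosSemidef) :
    (tensorPow (gadc γ ν) n ρ).PosSemidef := by
  rw [tensorPow_eq_kraus hγ hν]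
  exact posSemidef_sum _ fun k _ => h.mul_mul_conjTranspose_same _

lemma tensorPow_fromBlocks_posSemidef (hγ : γ ∈ Set.Icc (0 : ℝ) 1) (hν : ν ∈ Set.Icc (0 : ℝ) 1)
    (n : ℕ) {A B C D : Matrix (Fin n → Fin 2) (Fin n → Fin 2) ℂ}
    (h : (fromBlocks A B C D).PosSemidef) :
    (fromBlocks (tensorPow (gadc γ ν) n A) (tensorPow (gadc γ ν) n B)
      (tensorPow (gadc γ ν) n C) (tensorPow (gadc γ ν) n D)).PosSemidef := by
  have hk : fromBlocks (tensorPow (gadc γ ν) n A) (tensorPow (gadc γ ν) n B)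
      (tensorPow (gadc γ ν) n C) (tensorPow (gadc γ ν) n D)
      = ∑ k, fromBlocks (krausPow γ ν n k) 0 0 (krausPow γ ν n k) * fromBlocks A B C D
        * (fromBlocks (krausPow γ ν n k) 0 0 (krausPow γ ν n k))ᴴ := by
    simp only [fromBlocks_conjTranspose, fromBlocks_multiply, conjTranspose_zero, Matrix.zero_mul,
      Matrix.mul_zero, add_zero, zero_add, tensorPow_eq_kraus hγ hν]
    ext i j
    rcases i with i | i <;> rcases j with j | j <;> simp [Matrix.sum_apply]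
  rw [hk]
  exact posSemidef_sum _ fun k _ => h.mul_mul_conjTranspose_same _

lemma tensorPow_smul (Φ : Matrix (Fin 2) (Fin 2) ℂ → Matrix (Fin 2) (Fin 2) ℂ) (n : ℕ) (c : ℂ)
    (ρ : Matrix (Fin n → Fin 2) (Fin n → Fin 2) ℂ) :
    tensorPow Φ n (c • ρ) = c • tensorPow Φ n ρ := by
  ext x y
  simp only [tensorPow, Matrix.of_apply, Matrix.smul_apply, smul_eq_mul, Finset.mul_sum]
  exact Finset.sum_congr rfl fun a _ => Finset.sum_congr rfl fun b _ => by ring

lemma tensorPow_sum {ι : Type*} (s : Finset ι)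
    (Φ : Matrix (Fin 2) (Fin 2) ℂ → Matrix (Fin 2) (Fin 2) ℂ) (n : ℕ)
    (ρ : ι → Matrix (Fin n → Fin 2) (Fin n → Fin 2) ℂ) :
    tensorPow Φ n (∑ k ∈ s, ρ k) = ∑ k ∈ s, tensorPow Φ n (ρ k) := by
  ext x y
  simp only [tensorPow, Matrix.of_apply, Matrix.sum_apply, Finset.mul_sum]
  symm
  rw [Finset.sum_comm]
  exact Finset.sum_congr rfl fun a _ => Finset.sum_comm

lemma gadc_single_trace (a b : Fin 2) :
    ∑ i, gadc γ ν (Matrix.single a b 1) i i = if a = b then 1 else 0 := by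
  fin_cases a <;> fin_cases b <;>
    simp [gadc, Fin.sum_univ_two, Matrix.single_apply] <;> ring

lemma tensorPow_trace (n : ℕ) (ρ : Matrix (Fin n → Fin 2) (Fin n → Fin 2) ℂ) :
    (tensorPow (gadc γ ν) n ρ).trace = ρ.trace := by
  simp only [Matrix.trace, Matrix.diag_apply, tensorPow, Matrix.of_apply]
  rw [Finset.sum_comm]
  refine Finset.sum_congr rfl fun a _ => ?_
  rw [Finset.sum_comm]
  have h : ∀ b : Fin n → Fin 2,
      ∑ x : Fin n → Fin 2, (∏ i, gadc γ ν (Matrix.single (a i) (b i) 1) (x i) (x i)) * ρ a b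
        = if a = b then ρ a b else 0 := by
    intro b
    rw [← Finset.sum_mul, ← Fintype.prod_sum (fun i j => gadc γ ν (Matrix.single (a i) (b i) 1) j j)]
    simp only [gadc_single_trace]
    by_cases hab : a = b
    · simp [hab]
    · obtain ⟨i, hi⟩ := Function.ne_iff.1 hab
      rw [Finset.prod_eq_zero (Finset.mem_univ i) (if_neg hi)]
      simp [hab]
  simp [h]

lemma isState_tensorPow (hγ : γ ∈ Set.Icc (0 : ℝ) 1) (hν : ν ∈ Set.Icc (0 : ℝ) 1) (n : ℕ)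
    {ρ : Matrix (Fin n → Fin 2) (Fin n → Fin 2) ℂ} (h : IsState ρ) :
    IsState (tensorPow (gadc γ ν) n ρ) :=
  ⟨tensorPow_posSemidef hγ hν n h.1, by rw [tensorPow_trace, h.2]⟩

/-- Splitting off the first qubit. -/
def splitEquiv (n : ℕ) : (Fin n → Fin 2) ⊕ (Fin n → Fin 2) ≃ (Fin (n + 1) → Fin 2) where
  toFun := Sum.elim (fun x => Fin.cons (0 : Fin 2) x) (fun x => Fin.cons (1 : Fin 2) x)
  invFun f := if f 0 = 0 then Sum.inl (Fin.tail f) else Sum.inr (Fin.tail f)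
  left_inv := by rintro (x | x) <;> simp
  right_inv f := by
    have h : f 0 = 0 ∨ f 0 = 1 := by omega
    rcases h with h | h <;> simp [h] <;> rw [← h, Fin.cons_self_tail]

/-- Block of a matrix with respect to the first qubit. -/
def blk {n : ℕ} (ρ : Matrix (Fin (n + 1) → Fin 2) (Fin (n + 1) → Fin 2) ℂ) (a b : Fin 2) :
    Matrix (Fin n → Fin 2) (Fin n → Fin 2) ℂ :=
  Matrix.of fun x y => ρ (Fin.cons a x) (Fin.cons b y)

lemma submatrix_splitEquiv {n : ℕ}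
    (ρ : Matrix (Fin (n + 1) → Fin 2) (Fin (n + 1) → Fin 2) ℂ) :
    ρ.submatrix (splitEquiv n) (splitEquiv n)
      = fromBlocks (blk ρ 0 0) (blk ρ 0 1) (blk ρ 1 0) (blk ρ 1 1) := by
  ext i j
  rcases i with i | i <;> rcases j with j | j <;> simp [splitEquiv, blk]

lemma tensorPow_cons (Φ : Matrix (Fin 2) (Fin 2) ℂ → Matrix (Fin 2) (Fin 2) ℂ) (n : ℕ)
    (ρ : Matrix (Fin (n + 1) → Fin 2) (Fin (n + 1) → Fin 2) ℂ) (i j : Fin 2)
    (x y : Fin n → Fin 2) :
    tensorPow Φ (n + 1) ρ (Fin.cons i x) (Fin.cons j y)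
      = ∑ a, ∑ b, Φ (Matrix.single a b 1) i j * tensorPow Φ n (blk ρ a b) x y := by
  simp only [tensorPow, Matrix.of_apply]
  rw [← (Fin.consEquiv fun _ => Fin 2).sum_comp, Fintype.sum_prod_type]
  refine Finset.sum_congr rfl fun a _ => ?_
  rw [Finset.sum_congr rfl fun a' _ => ((Fin.consEquiv fun _ => Fin 2).sum_comp _).symm]
  simp only [Fintype.sum_prod_type, Fin.prod_univ_succ, blk, Matrix.of_apply, Finset.mul_sum,
    Fin.consEquiv_apply, Fin.cons_zero, Fin.cons_succ, mul_assoc]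
  exact Finset.sum_comm

lemma tensorPow_blocks (n : ℕ) (ρ : Matrix (Fin (n + 1) → Fin 2) (Fin (n + 1) → Fin 2) ℂ) :
    (tensorPow (gadc γ ν) (n + 1) ρ).submatrix (splitEquiv n) (splitEquiv n)
      = fromBlocks
        (((1 - γ * ν : ℝ) : ℂ) • tensorPow (gadc γ ν) n (blk ρ 0 0)
          + ((γ * (1 - ν) : ℝ) : ℂ) • tensorPow (gadc γ ν) n (blk ρ 1 1))
        (((Real.sqrt (1 - γ) : ℝ) : ℂ) • tensorPow (gadc γ ν) n (blk ρ 0 1))
        (((Real.sqrt (1 - γ) : ℝ) : ℂ) • tensorPow (gadc γ ν) n (blk ρ 1 0))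
        (((γ * ν : ℝ) : ℂ) • tensorPow (gadc γ ν) n (blk ρ 0 0)
          + ((1 - γ + γ * ν : ℝ) : ℂ) • tensorPow (gadc γ ν) n (blk ρ 1 1)) := by
  ext i j
  rcases i with i | i <;> rcases j with j | j <;>
    simp [splitEquiv, tensorPow_cons, Fin.sum_univ_two, gadc, Matrix.single_apply]

lemma tensorPow_kronecker (n : ℕ) (σ : Matrix (Fin 2) (Fin 2) ℂ)
    (ρ : Matrix (Fin n → Fin 2) (Fin n → Fin 2) ℂ) :
    tensorPow (gadc γ ν) (n + 1)
        (reindex (Fin.consEquiv fun _ => Fin 2) (Fin.consEquiv fun _ => Fin 2) (σ ⊗ₖ ρ))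
      = reindex (Fin.consEquiv fun _ => Fin 2) (Fin.consEquiv fun _ => Fin 2)
          (gadc γ ν σ ⊗ₖ tensorPow (gadc γ ν) n ρ) := by
  ext x y
  obtain ⟨⟨i, x'⟩, rfl⟩ := (Fin.consEquiv fun _ : Fin (n + 1) => Fin 2).surjective x
  obtain ⟨⟨j, y'⟩, rfl⟩ := (Fin.consEquiv fun _ : Fin (n + 1) => Fin 2).surjective y
  simp only [reindex_apply, submatrix_apply, Equiv.symm_apply_apply, kroneckerMap_apply]
  show tensorPow (gadc γ ν) (n + 1) _ (Fin.cons i x') (Fin.cons j y') = _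
  rw [tensorPow_cons, gadc_apply σ i j, Finset.sum_mul]
  refine Finset.sum_congr rfl fun a _ => ?_
  rw [Finset.sum_mul]
  refine Finset.sum_congr rfl fun b _ => ?_
  have hb : blk ((σ ⊗ₖ ρ).submatrix (Fin.consEquiv fun _ => Fin 2).symm
      (Fin.consEquiv fun _ => Fin 2).symm) a b = σ a b • ρ := by
    ext u v
    simp [blk, Fin.consEquiv]
  rw [hb, tensorPow_smul, Matrix.smul_apply, smul_eq_mul]
  ring

end Vale.Agent.P358
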