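import Vale.Agent.P358.Spectral

/-!
Lower bound for a log-determinant along a path of clipped matrices, and eigenvalue counting.
-/

open Matrix MeasureTheory
open scoped ComplexOrder

namespace Vale.Agent.P358

variable {n m κ : Type*} [Fintype n] [DecidableEq n] [Fintype m] [DecidableEq m]

/-- Number of eigenvalues above `t`. -/
noncomputable def cnt {A : Matrix n n ℂ} (hA : A.IsHermitian) (t : ℝ) : ℝ :=
  ((Finset.univ.filter fun i => t < hA.eigenvalues i).card : ℝ)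

/-- Eigenvalues clipped at `x`. -/
noncomputable def clip {A : Matrix n n ℂ} (hA : A.IsHermitian) (x : ℝ) : Matrix n n ℂ :=
  sfun hA (fun l => min l x)

/-- Trace of `X (Q + s)⁻¹ Xᴴ`. -/
noncomputable def resMat {Q : Matrix n n ℂ} (hQ : Q.PosSemidef) (X : Matrix m n ℂ) (s : ℝ) :
    Matrix m m ℂ :=
  X * sfun hQ.1 (fun q => (q + s)⁻¹) * Xᴴ

lemma cnt_eq_sum {A : Matrix n n ℂ} (hA : A.IsHermitian) (t : ℝ) :
    cnt hA t = ∑ i, if t < hA.eigenvalues i then (1 : ℝ) else 0 := by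
  rw [cnt, Finset.sum_boole]

lemma cnt_nonneg {A : Matrix n n ℂ} (hA : A.IsHermitian) (t : ℝ) : 0 ≤ cnt hA t := Nat.cast_nonneg _

lemma clip_posSemidef {A : Matrix n n ℂ} (hA : A.PosSemidef) {x : ℝ} (hx : 0 ≤ x) :
    (clip hA.1 x).PosSemidef :=
  sfun_posSemidef _ fun i => le_min (hA.eigenvalues_nonneg i) hx

lemma clip_sub_posSemidef {A : Matrix n n ℂ} (hA : A.IsHermitian) {x x' : ℝ} (h : x ≤ x') :
    (clip hA x' - clip hA x).PosSemidef := by
  rw [clip, clip, sfun_sub]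
  exact sfun_posSemidef _ fun i => sub_nonneg.2 (min_le_min le_rfl h)

lemma clip_trace_gain {A : Matrix n n ℂ} (hA : A.IsHermitian) {x x' : ℝ} (h : x ≤ x') :
    (x' - x) * cnt hA x' ≤ (clip hA x' - clip hA x).trace.re := by
  rw [clip, clip, sfun_sub, trace_sfun, cnt_eq_sum, Finset.mul_sum]
  refine Finset.sum_le_sum fun i _ => ?_
  split_ifs with hi
  · rw [min_eq_right hi.le, min_eq_right (h.trans hi.le), mul_one]
  · rw [mul_zero]
    exact sub_nonneg.2 (min_le_min le_rfl h)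

lemma trace_clip {A : Matrix n n ℂ} (hA : A.IsHermitian) (x : ℝ) :
    (clip hA x).trace.re = ∑ i, min (hA.eigenvalues i) x := trace_sfun hA _

lemma trace_clip_sq {A : Matrix n n ℂ} (hA : A.IsHermitian) (x : ℝ) :
    (clip hA x * clip hA x).trace.re = ∑ i, min (hA.eigenvalues i) x ^ 2 := by
  rw [clip, sfun_mul, trace_sfun]
  simp only [sq]

/-- The positive definite matrices on the clipped path. -/
noncomputable def pathMat {M₀ M₁ : Matrix m m ℂ} (h₀ : M₀.IsHermitian) (h₁ : M₁.IsHermitian)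
    (x y : ℝ) : Matrix m m ℂ :=
  1 + clip h₀ x + clip h₁ y

lemma pathMat_posDef {M₀ M₁ : Matrix m m ℂ} (h₀ : M₀.PosSemidef) (h₁ : M₁.PosSemidef) {x y : ℝ}
    (hx : 0 ≤ x) (hy : 0 ≤ y) : (pathMat h₀.1 h₁.1 x y).PosDef :=
  (PosDef.one.add_posSemidef (clip_posSemidef h₀ hx)).add_posSemidef (clip_posSemidef h₁ hy)

lemma ld_path_zero {M₀ M₁ : Matrix m m ℂ} (h₀ : M₀.PosSemidef) (h₁ : M₁.PosSemidef) {x y : ℝ}
    (hx : 0 ≤ x) (hy : 0 ≤ y) :
    ((∑ i, min (h₀.1.eigenvalues i) x) - 2 * ∑ i, min (h₀.1.eigenvalues i) x ^ 2)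
      + ((∑ i, min (h₁.1.eigenvalues i) y) - 2 * ∑ i, min (h₁.1.eigenvalues i) y ^ 2)
    ≤ ld (pathMat h₀.1 h₁.1 x y) := by
  have hP0 := clip_posSemidef h₀ hx
  have hP1 := clip_posSemidef h₁ hy
  have e1 := ld_one_add (hP0.add hP1)
  have e2 := trace_sq_add_le hP0.1 hP1.1
  rw [trace_add, Complex.add_re, ← add_assoc, trace_clip, trace_clip] at e1
  rw [trace_clip_sq, trace_clip_sq] at e2
  show _ ≤ ld (1 + clip h₀.1 x + clip h₁.1 y)
  linarith

lemma sub_clip_posSemidef {A : Matrix n n ℂ} (hA : A.IsHermitian) (x : ℝ) :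
    ((x : ℂ) • (1 : Matrix n n ℂ) - clip hA x).PosSemidef := by
  have h : (x : ℂ) • (1 : Matrix n n ℂ) - clip hA x = sfun hA (fun l => x - min l x) := by
    rw [← sfun_sub hA (fun _ => x) (fun l => min l x), sfun_const]
    rfl
  rw [h]
  exact sfun_posSemidef _ fun i => sub_nonneg.2 (min_le_right _ _)

lemma self_sub_clip_posSemidef {A : Matrix n n ℂ} (hA : A.IsHermitian) (x : ℝ) :
    (A - clip hA x).PosSemidef := by
  have h : A - clip hA x = sfun hA (fun l => l - min l x) := by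
    rw [← sfun_sub hA (fun l => l) (fun l => min l x), sfun_id]
    rfl
  rw [h]
  exact sfun_posSemidef _ fun i => sub_nonneg.2 (min_le_left _ _)

lemma trace_smul_sub_posSemidef {A : Matrix n n ℂ} (hA : A.PosSemidef) :
    ((A.trace.re : ℂ) • (1 : Matrix n n ℂ) - A).PosSemidef := by
  have h : (A.trace.re : ℂ) • (1 : Matrix n n ℂ) - A = sfun hA.1 (fun l => A.trace.re - l) := by
    rw [← sfun_sub hA.1 (fun _ => A.trace.re) (fun l => l), sfun_const, sfun_id]
  rw [h]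
  refine sfun_posSemidef _ fun i => ?_
  rw [trace_re_eq_sum hA.1, sub_nonneg]
  exact Finset.single_le_sum (fun j _ => hA.eigenvalues_nonneg j) (Finset.mem_univ i)

lemma ld_path_step {M₀ M₁ : Matrix m m ℂ} (h₀ : M₀.PosSemidef) (h₁ : M₁.PosSemidef)
    {x x' y y' : ℝ} (hx : 0 ≤ x) (hy : 0 ≤ y) (hxx : x ≤ x') (hyy : y ≤ y') :
    ld (pathMat h₀.1 h₁.1 x y) + ((x' - x) * cnt h₀.1 x' + (y' - y) * cnt h₁.1 y') / (1 + x' + y')
      ≤ ld (pathMat h₀.1 h₁.1 x' y') := by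
  have hc : 0 < 1 + x' + y' := by linarith
  have hsub : pathMat h₀.1 h₁.1 x' y' - pathMat h₀.1 h₁.1 x y
      = (clip h₀.1 x' - clip h₀.1 x) + (clip h₁.1 y' - clip h₁.1 y) := by
    simp only [pathMat]; abel
  have hD : (pathMat h₀.1 h₁.1 x' y' - pathMat h₀.1 h₁.1 x y).PosSemidef := by
    rw [hsub]
    exact (clip_sub_posSemidef _ hxx).add (clip_sub_posSemidef _ hyy)
  have hle : (((1 + x' + y' : ℝ) : ℂ) • (1 : Matrix m m ℂ)
      - pathMat h₀.1 h₁.1 x' y').PosSemidef := by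
    have h2 : ((1 + x' + y' : ℝ) : ℂ) • (1 : Matrix m m ℂ) - pathMat h₀.1 h₁.1 x' y'
        = ((x' : ℂ) • 1 - clip h₀.1 x') + ((y' : ℂ) • 1 - clip h₁.1 y') := by
      simp only [pathMat, Complex.ofReal_add, Complex.ofReal_one, add_smul, one_smul]
      abel
    rw [h2]
    exact (sub_clip_posSemidef _ _).add (sub_clip_posSemidef _ _)
  refine le_trans ?_ (ld_step (pathMat_posDef h₀ h₁ hx hy)
    (pathMat_posDef h₀ h₁ (hx.trans hxx) (hy.trans hyy)) hc hD hle)
  refine (add_le_add_iff_left _).2 (div_le_div_of_nonneg_right ?_ hc.le)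
  rw [hsub, trace_add, Complex.add_re]
  exact add_le_add (clip_trace_gain _ hxx) (clip_trace_gain _ hyy)

lemma ld_path_last {M₀ M₁ : Matrix m m ℂ} (h₀ : M₀.PosSemidef) (h₁ : M₁.PosSemidef) {x y : ℝ}
    (hx : 0 ≤ x) (hy : 0 ≤ y) : ld (pathMat h₀.1 h₁.1 x y) ≤ ld (1 + M₀ + M₁) := by
  have hF : (1 + M₀ + M₁).PosDef := (PosDef.one.add_posSemidef h₀).add_posSemidef h₁
  have hD : ((1 + M₀ + M₁) - pathMat h₀.1 h₁.1 x y).PosSemidef := by
    have h2 : (1 + M₀ + M₁) - pathMat h₀.1 h₁.1 x y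
        = (M₀ - clip h₀.1 x) + (M₁ - clip h₁.1 y) := by
      simp only [pathMat]; abel
    rw [h2]
    exact (self_sub_clip_posSemidef _ _).add (self_sub_clip_posSemidef _ _)
  have hc : 0 < 1 + M₀.trace.re + M₁.trace.re := by
    have := (Complex.le_def.1 h₀.trace_nonneg).1
    have := (Complex.le_def.1 h₁.trace_nonneg).1
    simp only [Complex.zero_re] at *
    linarith
  have hle : (((1 + M₀.trace.re + M₁.trace.re : ℝ) : ℂ) • (1 : Matrix m m ℂ)
      - (1 + M₀ + M₁)).PosSemidef := by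
    have h2 : ((1 + M₀.trace.re + M₁.trace.re : ℝ) : ℂ) • (1 : Matrix m m ℂ) - (1 + M₀ + M₁)
        = ((M₀.trace.re : ℂ) • 1 - M₀) + ((M₁.trace.re : ℂ) • 1 - M₁) := by
      simp only [Complex.ofReal_add, Complex.ofReal_one, add_smul, one_smul]
      abel
    rw [h2]
    exact (trace_smul_sub_posSemidef h₀).add (trace_smul_sub_posSemidef h₁)
  refine le_trans (le_add_of_nonneg_right (div_nonneg ?_ hc.le))
    (ld_step (pathMat_posDef h₀ h₁ hx hy) hF hc hD hle)
  exact (Complex.le_def.1 hD.trace_nonneg).1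

/-- The log-determinant is bounded below along the path of clipped matrices. -/
lemma ld_path {M₀ M₁ : Matrix m m ℂ} (h₀ : M₀.PosSemidef) (h₁ : M₁.PosSemidef) (x y : ℕ → ℝ)
    (hx0 : 0 ≤ x 0) (hy0 : 0 ≤ y 0) (hx : ∀ k, x k ≤ x (k + 1)) (hy : ∀ k, y k ≤ y (k + 1))
    (K : ℕ) :
    ((∑ i, min (h₀.1.eigenvalues i) (x 0)) - 2 * ∑ i, min (h₀.1.eigenvalues i) (x 0) ^ 2)
      + ((∑ i, min (h₁.1.eigenvalues i) (y 0)) - 2 * ∑ i, min (h₁.1.eigenvalues i) (y 0) ^ 2)
      + ∑ k ∈ Finset.range K, ((x (k + 1) - x k) * cnt h₀.1 (x (k + 1))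
          + (y (k + 1) - y k) * cnt h₁.1 (y (k + 1))) / (1 + x (k + 1) + y (k + 1))
    ≤ ld (1 + M₀ + M₁) := by
  have hxn : ∀ k, 0 ≤ x k := fun k => hx0.trans (monotone_nat_of_le_succ hx (Nat.zero_le k))
  have hyn : ∀ k, 0 ≤ y k := fun k => hy0.trans (monotone_nat_of_le_succ hy (Nat.zero_le k))
  refine le_trans ?_ (ld_path_last h₀ h₁ (hxn K) (hyn K))
  induction K with
  | zero =>
    rw [Finset.range_zero, Finset.sum_empty, add_zero]
    exact ld_path_zero h₀ h₁ hx0 hy0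
  | succ L ih =>
    rw [Finset.sum_range_succ, ← add_assoc]
    have := ld_path_step h₀ h₁ (hxn L) (hyn L) (hx L) (hy L)
    linarith

lemma sfun_shift_mul {Q : Matrix n n ℂ} (hQ : Q.PosSemidef) {s : ℝ} (hs : 0 < s) :
    sfun hQ.1 (fun q => (q + s)⁻¹) * (Q + (s : ℂ) • 1) = 1 ∧
      (Q + (s : ℂ) • 1) * sfun hQ.1 (fun q => (q + s)⁻¹) = 1 := by
  have h : Q + (s : ℂ) • 1 = sfun hQ.1 (fun q => q + s) := by
    rw [← sfun_add hQ.1 (fun q => q) (fun _ => s), sfun_id, sfun_const]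
  have hne : ∀ i, hQ.1.eigenvalues i + s ≠ 0 := fun i => by
    linarith [hQ.eigenvalues_nonneg i]
  rw [h, sfun_mul, sfun_mul]
  constructor <;>
    rw [sfun_congr hQ.1 (g := fun _ => (1 : ℝ)) (fun i => by simp [hne i]), sfun_const] <;> simp

lemma resMat_posSemidef {Q : Matrix n n ℂ} (hQ : Q.PosSemidef) (X : Matrix m n ℂ) {s : ℝ}
    (hs : 0 < s) : (resMat hQ X s).PosSemidef :=
  PosSemidef.mul_mul_conjTranspose_same
    (sfun_posSemidef hQ.1 (f := fun q => (q + s)⁻¹)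
      fun i => inv_nonneg.2 (by linarith [hQ.eigenvalues_nonneg i])) X

lemma resMat_trace_le {Q : Matrix n n ℂ} (hQ : Q.PosSemidef) (X : Matrix m n ℂ) {s : ℝ}
    (hs : 0 < s) : (resMat hQ X s).trace.re ≤ (Xᴴ * X).trace.re / s := by
  have h : ((s⁻¹ : ℝ) : ℂ) • (1 : Matrix n n ℂ) - sfun hQ.1 (fun q => (q + s)⁻¹)
      = sfun hQ.1 (fun q => s⁻¹ - (q + s)⁻¹) := by
    rw [← sfun_sub hQ.1 (fun _ => s⁻¹), sfun_const]
  have hp := sfun_posSemidef hQ.1 (f := fun q => s⁻¹ - (q + s)⁻¹)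
    (fun i => sub_nonneg.2 (inv_anti₀ hs (by linarith [hQ.eigenvalues_nonneg i])))
  rw [← h] at hp
  have h2 := trace_mul_nonneg hp (posSemidef_conjTranspose_mul_self X)
  rw [Matrix.sub_mul, trace_sub, Matrix.smul_mul, Matrix.one_mul, trace_smul, Complex.sub_re,
    smul_eq_mul, Complex.re_ofReal_mul, inv_mul_eq_div] at h2
  rw [resMat, Matrix.trace_mul_comm, ← Matrix.mul_assoc, Matrix.trace_mul_comm]
  linarith

/-- Counting eigenvalues of `X (Q + s)⁻¹ Xᴴ` from below. -/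
lemma card_le_cnt_resMat [Fintype κ] [DecidableEq κ] {Q : Matrix n n ℂ} (hQ : Q.PosSemidef)
    (X : Matrix m n ℂ) {s t : ℝ} (hs : 0 < s) (ht : 0 ≤ t) (L : Matrix n κ ℂ)
    (h : ∀ z : κ → ℂ, z ≠ 0 → t * (qform Q (L *ᵥ z) + s * sqn (L *ᵥ z)) < qform (Xᴴ * X) (L *ᵥ z)) :
    (Fintype.card κ : ℝ) ≤ cnt (resMat_posSemidef hQ X hs).1 t := by
  refine Nat.cast_le.2 (card_le_count (resMat_posSemidef hQ X hs).1 (X * L) t fun z hz => ?_)
  have hlt := h z hz
  rw [← mulVec_mulVec]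
  generalize L *ᵥ z = v at hlt ⊢
  set S := sfun hQ.1 (fun q => (q + s)⁻¹)
  set B := qform (Xᴴ * X) v
  set C := qform Q v + s * sqn v
  set A := qform (resMat hQ X s) (X *ᵥ v)
  have hC0 : 0 ≤ C := add_nonneg (qform_nonneg hQ v) (mul_nonneg hs.le (Finset.sum_nonneg
    fun i _ => Complex.normSq_nonneg _))
  have hsq : sqn (X *ᵥ v) = B := (qform_conjTranspose_mul_self X v).symm
  rw [hsq]
  have hCq : C = qform (Q + (s : ℂ) • 1) v := by rw [qform_add, qform_one_smul]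
  have hA : A = qform (Xᴴ * X * S * (Xᴴ * X)) v := by
    show qform (resMat hQ X s) (X *ᵥ v) = _
    simp only [qform, resMat, S, star_mulVec, ← dotProduct_mulVec, mulVec_mulVec, Matrix.mul_assoc]
  set U := Xᴴ * X with hU
  set R := Q + (s : ℂ) • (1 : Matrix n n ℂ) with hR
  have hUh : Uᴴ = U := isHermitian_conjTranspose_mul_self X
  have hRh : Rᴴ = R := by simp [hR, hQ.1.eq]
  obtain ⟨hSR, hRS⟩ := sfun_shift_mul hQ hs
  have hS : S.PosSemidef := sfun_posSemidef hQ.1 (f := fun q => (q + s)⁻¹) fun i =>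
    inv_nonneg.2 (by linarith [hQ.eigenvalues_nonneg i])
  have key : ∀ c : ℝ, 0 ≤ A - 2 * c * B + c ^ 2 * C := by
    intro c
    have hp := qform_nonneg (hS.mul_mul_conjTranspose_same (U - (c : ℂ) • R)) v
    have hexp : (U - (c : ℂ) • R) * S * (U - (c : ℂ) • R)ᴴ
        = U * S * U + ((-2 * c : ℝ) : ℂ) • U + ((c ^ 2 : ℝ) : ℂ) • R := by
      rw [conjTranspose_sub, conjTranspose_smul, hUh, hRh]
      simp only [Matrix.sub_mul, Matrix.mul_sub, Matrix.smul_mul, Matrix.mul_smul]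
      rw [show R * S = 1 from hRS, Matrix.mul_assoc U S R, show S * R = 1 from hSR]
      simp only [Matrix.one_mul, Matrix.mul_one, Complex.star_def, Complex.conj_ofReal]
      module
    rw [hexp, qform_add, qform_add, qform_smul, qform_smul, ← hA, ← hCq] at hp
    linarith
  rcases hC0.eq_or_lt with hC | hC
  · have := key ((A + 1) / (2 * B))
    rw [← hC, mul_zero] at hlt
    have h3 : 2 * ((A + 1) / (2 * B)) * B = A + 1 := by field_simp
    rw [← hC, mul_zero, h3] at this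
    linarith
  · have h2 := key (B / C)
    have h3 : A - 2 * (B / C) * B + (B / C) ^ 2 * C = A - B ^ 2 / C := by field_simp; ring
    rw [h3, sub_nonneg] at h2
    refine lt_of_lt_of_le ?_ h2
    rw [lt_div_iff₀ hC]
    have hB : 0 < B := lt_of_le_of_lt (mul_nonneg ht hC0) hlt
    nlinarith

lemma integral_ite_lt {a b c : ℝ} (hab : a ≤ b) :
    (∫ t in a..b, if t < c then (1 : ℝ) else 0) = max (min c b) a - a := by
  set p := max (min c b) a
  have h1 : a ≤ p := le_max_right _ _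
  have h2 : p ≤ b := max_le (min_le_right _ _) hab
  have hanti : Antitone (fun t : ℝ => if t < c then (1 : ℝ) else 0) := by
    intro x y hxy
    simp only
    split_ifs <;> norm_num
    linarith
  rw [← intervalIntegral.integral_add_adjacent_intervals (b := p) hanti.intervalIntegrable
    hanti.intervalIntegrable]
  have hne : ∀ᵐ t : ℝ, t ≠ c := volume.ae_ne c
  rw [intervalIntegral.integral_congr_ae (g := fun _ => (1 : ℝ)) (a := a),
    intervalIntegral.integral_congr_ae (g := fun _ => (0 : ℝ)) (a := p)]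
  · simp
  · filter_upwards [hne] with t htc ht
    rw [Set.uIoc_of_le h2] at ht
    have h3 : min c b < t := (le_max_left _ _).trans_lt ht.1
    rw [if_neg]
    intro hlt
    rcases min_lt_iff.1 h3 with h | h <;> linarith [ht.2]
  · filter_upwards [hne] with t htc ht
    rw [Set.uIoc_of_le h1] at ht
    rw [if_pos]
    rcases le_max_iff.1 ht.2 with h | h
    · exact lt_of_le_of_ne (h.trans (min_le_left _ _)) htc
    · linarith [ht.1]

/-- Layer-cake comparison. -/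
lemma sum_min_le_of_count {ι : Type*} [Fintype ι] {c : ι → ℝ} {l : m → ℝ} (hc : ∀ i, 0 ≤ c i)
    (hl : ∀ i, 0 ≤ l i)
    (h : ∀ t, 0 ≤ t → (∑ i, if t < c i then (1 : ℝ) else 0) ≤ ∑ i, if t < l i then (1 : ℝ) else 0)
    {δ : ℝ} (hδ : 0 ≤ δ) : ∑ i, min (c i) δ ≤ ∑ i, min (l i) δ := by
  have hanti : ∀ r : ℝ, Antitone (fun t : ℝ => if t < r then (1 : ℝ) else 0) := by
    intro r x y hxy
    simp only
    split_ifs <;> norm_num
    linarith
  have e : ∀ r : ℝ, 0 ≤ r → min r δ = ∫ t in (0 : ℝ)..δ, if t < r then (1 : ℝ) else 0 := by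
    intro r hr
    rw [integral_ite_lt hδ, max_eq_left (le_min hr hδ), sub_zero]
  rw [Finset.sum_congr rfl (fun i _ => e (c i) (hc i)),
    Finset.sum_congr rfl (fun i _ => e (l i) (hl i)),
    ← intervalIntegral.integral_finsetSum fun i _ => (hanti (c i)).intervalIntegrable,
    ← intervalIntegral.integral_finsetSum fun i _ => (hanti (l i)).intervalIntegrable]
  refine intervalIntegral.integral_mono_on hδ ?_ ?_ fun t ht => h t ht.1
  · refine Antitone.intervalIntegrable fun a b hab => Finset.sum_le_sum fun i _ => ?_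
    exact hanti (c i) hab
  · refine Antitone.intervalIntegrable fun a b hab => Finset.sum_le_sum fun i _ => ?_
    exact hanti (l i) hab

end Vale.Agent.P358
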