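import Vale.Agent.P358.Entropy

/-!
Scalar lemmas: the two roots, the logarithmic function along the path and its monotonicity.
-/

open Filter Topology

namespace Vale.Agent.P358

variable {u v w z : ℝ}

/-- Larger eigenvalue of the compressed two-by-two matrix. -/
noncomputable def lamP (u v w z : ℝ) : ℝ := rootP (u + v + w + z) (u * z + w * v + w * z)

/-- Smaller eigenvalue of the compressed two-by-two matrix. -/
noncomputable def lamM (u v w z : ℝ) : ℝ := rootM (u + v + w + z) (u * z + w * v + w * z)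

/-- Log of the two-by-two determinant ratio. -/
noncomputable def ell (u v w z s : ℝ) : ℝ :=
  Real.log (lamP u v w z + s) + Real.log (lamM u v w z + s) - Real.log (w + s) - Real.log (z + s)

/-- Primitive attached to `ell`. -/
noncomputable def Hf (u v w z s : ℝ) : ℝ :=
  lamP u v w z * Real.log (lamP u v w z + s) + lamM u v w z * Real.log (lamM u v w z + s)
    - w * Real.log (w + s) - z * Real.log (z + s)

lemma rootP_add_rootM (T D : ℝ) : rootP T D + rootM T D = T := by
  unfold rootP rootM; ring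

lemma rootP_mul_rootM {T D : ℝ} (h : 0 ≤ T ^ 2 - 4 * D) : rootP T D * rootM T D = D := by
  have := Real.mul_self_sqrt h
  unfold rootP rootM
  linear_combination (-1 / 4 : ℝ) * this

lemma disc_nonneg (hu : 0 ≤ u) (hv : 0 ≤ v) :
    0 ≤ (u + v + w + z) ^ 2 - 4 * (u * z + w * v + w * z) := by
  nlinarith [sq_nonneg (u + w - v - z), mul_nonneg hu hv]

lemma lam_add (u v w z : ℝ) : lamP u v w z + lamM u v w z = u + v + w + z := rootP_add_rootM _ _

lemma lam_mul (hu : 0 ≤ u) (hv : 0 ≤ v) :
    lamP u v w z * lamM u v w z = u * z + w * v + w * z := rootP_mul_rootM (disc_nonneg hu hv)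

lemma lamM_le_lamP (u v w z : ℝ) : lamM u v w z ≤ lamP u v w z := by
  unfold lamP lamM rootP rootM
  linarith [Real.sqrt_nonneg ((u + v + w + z) ^ 2 - 4 * (u * z + w * v + w * z))]

lemma lamM_nonneg (hu : 0 ≤ u) (hv : 0 ≤ v) (hw : 0 ≤ w) (hz : 0 ≤ z) : 0 ≤ lamM u v w z := by
  have h1 : Real.sqrt ((u + v + w + z) ^ 2 - 4 * (u * z + w * v + w * z)) ≤ u + v + w + z := by
    rw [Real.sqrt_le_iff]
    exact ⟨by linarith, by nlinarith [mul_nonneg hu hz, mul_nonneg hw hv, mul_nonneg hw hz]⟩
  unfold lamM rootM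
  linarith

lemma lamP_nonneg (hu : 0 ≤ u) (hv : 0 ≤ v) (hw : 0 ≤ w) (hz : 0 ≤ z) : 0 ≤ lamP u v w z :=
  (lamM_nonneg hu hv hw hz).trans (lamM_le_lamP u v w z)

lemma ell_eq_log (hu : 0 ≤ u) (hv : 0 ≤ v) (hw : 0 ≤ w) (hz : 0 ≤ z) {s : ℝ} (hs : 0 < s) :
    ell u v w z s = Real.log (1 + u / (w + s) + v / (z + s)) := by
  have hp := lamP_nonneg hu hv hw hz
  have hm := lamM_nonneg hu hv hw hz
  have h : 1 + u / (w + s) + v / (z + s)
      = (lamP u v w z + s) * (lamM u v w z + s) / ((w + s) * (z + s)) := by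
    have : (lamP u v w z + s) * (lamM u v w z + s)
        = u * z + w * v + w * z + s * (u + v + w + z) + s ^ 2 := by
      rw [← lam_mul (w := w) (z := z) hu hv, ← lam_add u v w z]; ring
    rw [this]
    field_simp
    ring
  rw [h, Real.log_div (by positivity) (by positivity), Real.log_mul (by positivity) (by positivity),
    Real.log_mul (by positivity) (by positivity), ell]
  ring

lemma deriv_ell_nonpos (hu : 0 ≤ u) (hv : 0 ≤ v) (hw : 0 ≤ w) (hz : 0 ≤ z) {s : ℝ} (hs : 0 < s) :
    1 / (lamP u v w z + s) + 1 / (lamM u v w z + s) ≤ 1 / (w + s) + 1 / (z + s) := by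
  have hp := lamP_nonneg hu hv hw hz
  have hm := lamM_nonneg hu hv hw hz
  have ha := lam_add u v w z
  have hb := lam_mul (w := w) (z := z) hu hv
  rw [div_add_div _ _ (by positivity) (by positivity),
    div_add_div _ _ (by positivity) (by positivity),
    div_le_div_iff₀ (by positivity) (by positivity)]
  have e1 : (lamP u v w z + s) * (lamM u v w z + s)
      = (w + s) * (z + s) + u * (z + s) + v * (w + s) := by linear_combination hb + s * ha
  have e2 : 1 * (lamM u v w z + s) + (lamP u v w z + s) * 1 = (w + s) + (z + s) + u + v := by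
    linear_combination ha
  rw [e1, e2]
  nlinarith [mul_nonneg hu (sq_nonneg (z + s)), mul_nonneg hv (sq_nonneg (w + s))]

lemma hasDerivAt_log_add {a s : ℝ} (h : a + s ≠ 0) :
    HasDerivAt (fun x => Real.log (a + x)) (1 / (a + s)) s :=
  ((hasDerivAt_id s).const_add a).log h

lemma Hf_step (hu : 0 ≤ u) (hv : 0 ≤ v) (hw : 0 ≤ w) (hz : 0 ≤ z) {s' s : ℝ} (hs' : 0 < s')
    (hle : s' ≤ s) :
    Hf u v w z s - Hf u v w z s' ≤ s * (ell u v w z s' - ell u v w z s) := by
  have hp := lamP_nonneg hu hv hw hz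
  have hm := lamM_nonneg hu hv hw hz
  set lp := lamP u v w z
  set lm := lamM u v w z
  have hd : ∀ x, 0 < x → HasDerivAt (fun x => Hf u v w z x + s * ell u v w z x)
      ((s - x) * (1 / (lp + x) + 1 / (lm + x) - 1 / (w + x) - 1 / (z + x))) x := by
    intro x hx
    have h1 := hasDerivAt_log_add (a := lp) (s := x) (by positivity)
    have h2 := hasDerivAt_log_add (a := lm) (s := x) (by positivity)
    have h3 := hasDerivAt_log_add (a := w) (s := x) (by positivity)
    have h4 := hasDerivAt_log_add (a := z) (s := x) (by positivity)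
    refine (((((h1.const_mul lp).fun_add (h2.const_mul lm)).fun_sub (h3.const_mul w)).fun_sub
      (h4.const_mul z)).fun_add ((((h1.fun_add h2).fun_sub h3).fun_sub h4).const_mul s)).congr_deriv ?_
    have e : ∀ a : ℝ, 0 ≤ a → a * (1 / (a + x)) = 1 - x * (1 / (a + x)) := by
      intro a ha
      field_simp
      ring
    rw [e lp hp, e lm hm, e w hw, e z hz]
    ring
  have hanti : AntitoneOn (fun x => Hf u v w z x + s * ell u v w z x) (Set.Icc s' s) := by
    refine antitoneOn_of_hasDerivWithinAt_nonpos (convex_Icc _ _) ?_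
      (f' := fun x => (s - x) * (1 / (lp + x) + 1 / (lm + x) - 1 / (w + x) - 1 / (z + x))) ?_ ?_
    · exact fun x hx => (hd x (hs'.trans_le hx.1)).continuousAt.continuousWithinAt
    · intro x hx
      rw [interior_Icc] at hx
      exact (hd x (hs'.trans hx.1)).hasDerivWithinAt
    · intro x hx
      rw [interior_Icc] at hx
      have := deriv_ell_nonpos hu hv hw hz (hs'.trans hx.1)
      exact mul_nonpos_of_nonneg_of_nonpos (by linarith [hx.2]) (by linarith)
  have := hanti (Set.left_mem_Icc.2 hle) (Set.right_mem_Icc.2 hle) hle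
  simp only at this
  linarith

lemma step_scalar (hu : 0 ≤ u) (hv : 0 ≤ v) (hw : 0 ≤ w) (hz : 0 ≤ z) {ρ s : ℝ} (hρ : 1 ≤ ρ)
    (hs : 0 < s) :
    (Hf u v w z s - Hf u v w z (s / ρ)) / ρ ^ 2 ≤
      s / ρ * (((u / (w + s / ρ) - u / (w + s)) + (v / (z + s / ρ) - v / (z + s))) /
        (1 + u / (w + s / ρ) + v / (z + s / ρ))) := by
  have hρ0 : (0 : ℝ) < ρ := by linarith
  have hle : s / ρ ≤ s := div_le_self hs.le hρ
  have h1 : ∀ a b : ℝ, 0 ≤ a → 0 ≤ b → a / (b + s / ρ) ≤ ρ * (a / (b + s)) := by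
    intro a b ha hb
    rw [mul_div_assoc', div_le_div_iff₀ (by positivity) (by positivity)]
    have : ρ * (b + s / ρ) = ρ * b + s := by field_simp
    rw [mul_comm ρ a, mul_assoc, this]
    nlinarith [mul_nonneg ha (mul_nonneg hb (sub_nonneg.2 hρ))]
  set T' := u / (w + s / ρ) + v / (z + s / ρ)
  set T := u / (w + s) + v / (z + s)
  have hT : 0 ≤ T := by positivity
  have hT' : 0 ≤ T' := by positivity
  have hTT : T ≤ T' := add_le_add
    (div_le_div_of_nonneg_left hu (by positivity) (by linarith))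
    (div_le_div_of_nonneg_left hv (by positivity) (by linarith))
  have hρT : 1 + T' ≤ ρ * (1 + T) := by
    have := add_le_add (h1 u w hu hw) (h1 v z hv hz)
    simp only [T, T'] at *
    nlinarith
  have hl : ell u v w z (s / ρ) - ell u v w z s ≤ ρ * ((T' - T) / (1 + T')) := by
    rw [ell_eq_log hu hv hw hz hs, ell_eq_log hu hv hw hz (div_pos hs hρ0),
      show 1 + u / (w + s / ρ) + v / (z + s / ρ) = 1 + T' by ring,
      show 1 + u / (w + s) + v / (z + s) = 1 + T by ring,
      ← Real.log_div (by positivity) (by positivity)]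
    refine (Real.log_le_sub_one_of_pos (by positivity)).trans ?_
    rw [div_sub_one (by positivity), mul_div_assoc', div_le_div_iff₀ (by positivity) (by positivity)]
    nlinarith [mul_le_mul_of_nonneg_left hρT (sub_nonneg.2 hTT)]
  have h2 := (Hf_step hu hv hw hz (div_pos hs hρ0) hle).trans (mul_le_mul_of_nonneg_left hl hs.le)
  rw [show (u / (w + s / ρ) - u / (w + s)) + (v / (z + s / ρ) - v / (z + s)) = T' - T by ring,
    show 1 + u / (w + s / ρ) + v / (z + s / ρ) = 1 + T' by ring, div_le_iff₀ (by positivity)]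
  refine h2.trans (le_of_eq ?_)
  field_simp

lemma tendsto_mul_log_add {a : ℝ} (ha : 0 ≤ a) :
    Tendsto (fun R : ℝ => a * Real.log (a + R⁻¹)) atTop (𝓝 (-Real.negMulLog a)) := by
  rw [Real.negMulLog, neg_mul, neg_neg]
  rcases ha.eq_or_lt with rfl | h
  · simp
  · refine Tendsto.const_mul a (((Real.continuousAt_log h.ne').tendsto).comp ?_)
    simpa using (tendsto_inv_atTop_zero (𝕜 := ℝ)).const_add a

lemma tendsto_Hf_inv (hu : 0 ≤ u) (hv : 0 ≤ v) (hw : 0 ≤ w) (hz : 0 ≤ z) :
    Tendsto (fun R : ℝ => Hf u v w z R⁻¹) atTop (𝓝 (-Real.negMulLog (lamP u v w z)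
      + -Real.negMulLog (lamM u v w z) - -Real.negMulLog w - -Real.negMulLog z)) :=
  (((tendsto_mul_log_add (lamP_nonneg hu hv hw hz)).add
    (tendsto_mul_log_add (lamM_nonneg hu hv hw hz))).sub (tendsto_mul_log_add hw)).sub
    (tendsto_mul_log_add hz)

lemma tendsto_Hf_atTop (u v w z : ℝ) :
    Tendsto (fun R : ℝ => Hf u v w z R - u * Real.log (w + R) - v * Real.log (z + R)) atTop
      (𝓝 0) := by
  have h : ∀ a c : ℝ, Tendsto (fun R : ℝ => c * (Real.log (R + a) - Real.log R)) atTop (𝓝 0) := by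
    intro a c
    simpa using (Real.tendsto_log_comp_add_sub_log a).const_mul c
  have := ((((h (lamP u v w z) (lamP u v w z)).add (h (lamM u v w z) (lamM u v w z))).sub
    (h w (w + u))).sub (h z (z + v)))
  simp only [add_zero, sub_zero] at this
  refine this.congr fun R => ?_
  have ha := lam_add u v w z
  simp only [Hf, add_comm R]
  linear_combination (-Real.log R) * ha

end Vale.Agent.P358
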