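import Vale.Agent.P358.Entropy
import Vale.Agent.P358.Scalar
import Vale.Agent.P358.Path

/-!
The entropic compression inequality: integration of the log-determinant bound and the limits.
-/

open Matrix MeasureTheory Filter Topology
open scoped ComplexOrder

namespace Vale.Agent.P358

variable {n m : Type*} [Fintype n] [DecidableEq n] [Fintype m] [DecidableEq m]

/-- The lower bound for the first step. -/
noncomputable def headFun (X : Matrix m n ℂ) (Q : Matrix n n ℂ) (δ s : ℝ) : ℝ :=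
  (∑ i, min ((posSemidef_conjTranspose_mul_self X).1.eigenvalues i / (Q.trace.re + s)) δ)
    - 8 * (Fintype.card m + 1) *
      (δ ^ 2 * (Xᴴ * X).trace.re ^ 2 / ((Xᴴ * X).trace.re + s * δ) ^ 2)

lemma stepMat_isHermitian (X : Matrix m n ℂ) {Q : Matrix n n ℂ} (hQ : Q.PosSemidef) (t : ℝ) :
    (Xᴴ * X - (t : ℂ) • Q).IsHermitian := by
  show (Xᴴ * X - (t : ℂ) • Q)ᴴ = _
  rw [conjTranspose_sub, conjTranspose_smul, hQ.1.eq, (isHermitian_conjTranspose_mul_self X).eq]
  simp

/-- The counting function of a single step. -/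
noncomputable def stepCnt (X : Matrix m n ℂ) {Q : Matrix n n ℂ} (hQ : Q.PosSemidef) (t s : ℝ) : ℝ :=
  cnt (stepMat_isHermitian X hQ t) (t * s)

lemma stepCnt_le (X : Matrix m n ℂ) {Q : Matrix n n ℂ} (hQ : Q.PosSemidef) {t s : ℝ} (ht : 0 ≤ t)
    (hs : 0 < s) : stepCnt X hQ t s ≤ cnt (resMat_posSemidef hQ X hs).1 t := by
  classical
  set hA := stepMat_isHermitian X hQ t
  have h := card_le_cnt_resMat hQ X hs ht
    (fun i (j : {i // t * s < hA.eigenvalues i}) =>
      (hA.eigenvectorUnitary : Matrix n n ℂ) i j.1) ?_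
  · rw [Fintype.card_subtype] at h
    exact h
  · intro z hz
    have h2 := eigU_cols hA (fun i => t * s < hA.eigenvalues i) (b := t * s) (fun i hi => hi) z hz
    simp only [qform_sub, qform_smul] at h2
    linarith

lemma headFun_le (X : Matrix m n ℂ) {Q : Matrix n n ℂ} (hQ : Q.PosSemidef) {δ s : ℝ} (hδ : 0 ≤ δ)
    (hs : 0 < s) : headFun X Q δ s ≤ (∑ i, min ((resMat_posSemidef hQ X hs).1.eigenvalues i) δ)
      - 2 * ∑ i, min ((resMat_posSemidef hQ X hs).1.eigenvalues i) δ ^ 2 := by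
  classical
  have hM := resMat_posSemidef hQ X hs
  have hU := posSemidef_conjTranspose_mul_self X
  have hw : 0 ≤ Q.trace.re := (Complex.le_def.1 hQ.trace_nonneg).1
  have h1 : ∑ i, min (hU.1.eigenvalues i / (Q.trace.re + s)) δ
      ≤ ∑ i, min (hM.1.eigenvalues i) δ := by
    refine sum_min_le_of_count (fun i => div_nonneg (hU.eigenvalues_nonneg i) (by linarith))
      hM.eigenvalues_nonneg (fun t ht => ?_) hδ
    rw [← cnt_eq_sum, Finset.sum_boole]
    have h := card_le_cnt_resMat hQ X hs ht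
      (fun i (j : {i // t < hU.1.eigenvalues i / (Q.trace.re + s)}) =>
        (hU.1.eigenvectorUnitary : Matrix n n ℂ) i j.1) ?_
    · rw [Fintype.card_subtype] at h
      exact h
    · intro z hz
      have h2 := eigU_cols hU.1 (fun i => t < hU.1.eigenvalues i / (Q.trace.re + s))
        (b := t * (Q.trace.re + s)) (fun i hi => (lt_div_iff₀ (by linarith)).1 hi) z hz
      refine lt_of_le_of_lt ?_ h2
      rw [mul_assoc, add_mul]
      exact mul_le_mul_of_nonneg_left ((add_le_add_iff_right _).2 (qform_le_trace hQ _)) ht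
  set u := (Xᴴ * X).trace.re
  have hu : 0 ≤ u := (Complex.le_def.1 hU.trace_nonneg).1
  have htr : ∑ i, hM.1.eigenvalues i ≤ u / s := by
    rw [← trace_re_eq_sum hM.1]
    exact resMat_trace_le hQ X hs
  set P := δ ^ 2 * u ^ 2 / (u + s * δ) ^ 2
  have hP : 0 ≤ P := div_nonneg (by positivity) (sq_nonneg _)
  have h2 : ∑ i, min (hM.1.eigenvalues i) δ ^ 2 ≤ 4 * (Fintype.card m + 1) * P := by
    have hmn : ∀ i, 0 ≤ min (hM.1.eigenvalues i) δ := fun i =>
      le_min (hM.eigenvalues_nonneg i) hδ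
    rcases hu.eq_or_lt with hu0 | hu0
    · have : ∑ i, min (hM.1.eigenvalues i) δ ^ 2 = 0 := by
        refine Finset.sum_eq_zero fun i _ => ?_
        have h0 : hM.1.eigenvalues i = 0 := by
          have := Finset.single_le_sum (fun j _ => hM.eigenvalues_nonneg j) (Finset.mem_univ i)
          rw [← hu0, zero_div] at htr
          linarith [hM.eigenvalues_nonneg i]
        rw [h0, min_eq_left hδ]
        simp
      rw [this]
      positivity
    · rcases le_or_gt (s * δ) u with hsd | hsd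
      · have hq : δ ^ 2 ≤ 4 * P := by
          rw [mul_div_assoc', le_div_iff₀ (by positivity)]
          have : (u + s * δ) ^ 2 ≤ 4 * u ^ 2 := by nlinarith [mul_nonneg hs.le hδ]
          nlinarith [mul_le_mul_of_nonneg_left this (sq_nonneg δ)]
        calc ∑ i, min (hM.1.eigenvalues i) δ ^ 2 ≤ ∑ _i : m, δ ^ 2 :=
              Finset.sum_le_sum fun i _ => pow_le_pow_left₀ (hmn i) (min_le_right _ _) 2
          _ = Fintype.card m * δ ^ 2 := by simp
          _ ≤ 4 * (Fintype.card m + 1) * P := by nlinarith [Nat.cast_nonneg (α := ℝ) (Fintype.card m)]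
      · have hq : (u / s) ^ 2 ≤ 4 * P := by
          rw [mul_div_assoc', div_pow, div_le_div_iff₀ (by positivity) (by positivity)]
          have : (u + s * δ) ^ 2 ≤ 4 * (s * δ) ^ 2 := by nlinarith
          nlinarith [mul_le_mul_of_nonneg_left this (sq_nonneg u)]
        calc ∑ i, min (hM.1.eigenvalues i) δ ^ 2
            ≤ (∑ i, min (hM.1.eigenvalues i) δ) ^ 2 :=
              Finset.sum_sq_le_sq_sum_of_nonneg fun i _ => hmn i
          _ ≤ (u / s) ^ 2 := pow_le_pow_left₀ (Finset.sum_nonneg fun i _ => hmn i)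
              ((Finset.sum_le_sum fun i _ => min_le_left _ _).trans htr) 2
          _ ≤ 4 * (Fintype.card m + 1) * P := by
              nlinarith [Nat.cast_nonneg (α := ℝ) (Fintype.card m)]
  show (∑ i, min (hU.1.eigenvalues i / (Q.trace.re + s)) δ) - 8 * (Fintype.card m + 1) * P ≤ _
  linarith

lemma continuousOn_headFun (X : Matrix m n ℂ) {Q : Matrix n n ℂ} (hQ : Q.PosSemidef) {δ ε Λ : ℝ}
    (hδ : 0 ≤ δ) (hε : 0 < ε) :
    ContinuousOn (fun s => ∑ i, min ((posSemidef_conjTranspose_mul_self X).1.eigenvalues i /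
      (Q.trace.re + s)) δ) (Set.Icc ε Λ) ∧
    ContinuousOn (fun s => δ ^ 2 * (Xᴴ * X).trace.re ^ 2 / ((Xᴴ * X).trace.re + s * δ) ^ 2)
      (Set.Icc ε Λ) := by
  have hw : 0 ≤ Q.trace.re := (Complex.le_def.1 hQ.trace_nonneg).1
  have hu : 0 ≤ (Xᴴ * X).trace.re :=
    (Complex.le_def.1 (posSemidef_conjTranspose_mul_self X).trace_nonneg).1
  constructor
  · refine continuousOn_finsetSum _ fun i _ => ?_
    refine ContinuousOn.inf (ContinuousOn.div continuousOn_const
      (continuousOn_const.add continuousOn_id) fun s hs => ?_) continuousOn_const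
    linarith [hs.1]
  · rcases hu.eq_or_lt with h | h
    · simp [← h, continuousOn_const]
    · refine ContinuousOn.div continuousOn_const
        ((continuousOn_const.add (continuousOn_id.mul continuousOn_const)).pow 2) fun s hs => ?_
      have : 0 ≤ s * δ := mul_nonneg (by linarith [hs.1]) hδ
      exact (pow_pos (by linarith) 2).ne'

lemma integral_min_div_ge {a w δ ε Λ : ℝ} (ha : 0 ≤ a) (hw : 0 ≤ w) (hδ : 0 ≤ δ)
    (haδ : 0 < a → 0 < δ) (hε : 0 < ε) (hεΛ : ε ≤ Λ) (hΛ : a / δ ≤ Λ) :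
    a * Real.log Λ + Real.negMulLog a + a + a * Real.log δ - δ * (w + ε)
      ≤ ∫ s in ε..Λ, min (a / (w + s)) δ := by
  have hpos : ∀ s ∈ Set.Icc ε Λ, 0 < w + s := fun s hs => by linarith [hs.1]
  rcases ha.eq_or_lt with rfl | ha'
  · have : (∫ s in ε..Λ, min (0 / (w + s)) δ) = 0 := by simp [min_eq_left hδ]
    rw [this]
    simp
    positivity
  · have hδ' := haδ ha'
    set b := max ε (a / δ - w)
    have hb1 : ε ≤ b := le_max_left _ _
    have hb2 : b ≤ Λ := max_le hεΛ (by linarith)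
    have hc : ContinuousOn (fun s => min (a / (w + s)) δ) (Set.Icc ε Λ) :=
      ContinuousOn.inf (ContinuousOn.div continuousOn_const
        (continuousOn_const.add continuousOn_id) fun s hs => (hpos s hs).ne') continuousOn_const
    rw [← intervalIntegral.integral_add_adjacent_intervals (b := b)
      ((hc.mono (Set.Icc_subset_Icc le_rfl hb2)).intervalIntegrable_of_Icc hb1)
      ((hc.mono (Set.Icc_subset_Icc hb1 le_rfl)).intervalIntegrable_of_Icc hb2)]
    have i1 : δ * (b - ε) ≤ ∫ s in ε..b, min (a / (w + s)) δ := by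
      rcases hb1.eq_or_lt with h | h
      · rw [← h]
        simp
      · have hbv : b = a / δ - w := by
          rcases max_choice ε (a / δ - w) with h' | h'
          · exact absurd h' h.ne'
          · exact h'
        rw [intervalIntegral.integral_congr (g := fun _ => δ) fun s hs => ?_]
        · simp [mul_comm]
        · rw [Set.uIcc_of_le hb1] at hs
          have hp := hpos s ⟨hs.1, hs.2.trans hb2⟩
          refine min_eq_right ?_
          rw [le_div_iff₀ hp]
          have : w + s ≤ a / δ := by linarith [hs.2]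
          rw [le_div_iff₀ hδ'] at this
          linarith
    have i2 : a * (Real.log (w + Λ) - Real.log (w + b)) ≤ ∫ s in b..Λ, min (a / (w + s)) δ := by
      rw [intervalIntegral.integral_congr (g := fun s => a * (w + s)⁻¹) fun s hs => ?_]
      · rw [intervalIntegral.integral_const_mul,
          intervalIntegral.integral_comp_add_left (fun x => x⁻¹) w,
          integral_inv_of_pos (by linarith) (by linarith),
          Real.log_div (by linarith) (by linarith)]
      · rw [Set.uIcc_of_le hb2] at hs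
        have hp := hpos s ⟨hb1.trans hs.1, hs.2⟩
        show min (a / (w + s)) δ = a * (w + s)⁻¹
        rw [min_eq_left, div_eq_mul_inv]
        rw [div_le_iff₀ hp]
        have : a / δ ≤ w + s := by linarith [hs.1, le_max_right ε (a / δ - w)]
        rw [div_le_iff₀ hδ'] at this
        linarith
    have h3 := Real.log_le_sub_one_of_pos (show 0 < δ * (w + b) / a from
      div_pos (mul_pos hδ' (by linarith)) ha')
    rw [Real.log_div (by nlinarith) ha'.ne', Real.log_mul hδ'.ne' (by linarith)] at h3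
    have h4 := mul_le_mul_of_nonneg_left h3 ha
    have h5 : a * (δ * (w + b) / a - 1) = δ * (w + b) - a := by field_simp
    rw [h5] at h4
    have h6 : Real.log Λ ≤ Real.log (w + Λ) := Real.log_le_log (by linarith) (by linarith)
    have h7 := mul_le_mul_of_nonneg_left h6 ha
    rw [Real.negMulLog]
    linarith

lemma integral_err_le {u δ ε Λ : ℝ} (hu : 0 ≤ u) (hδ : 0 ≤ δ) (hε : 0 < ε) (hεΛ : ε ≤ Λ) :
    (∫ s in ε..Λ, δ ^ 2 * u ^ 2 / (u + s * δ) ^ 2) ≤ δ * u := by
  rcases hu.eq_or_lt with rfl | hu'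
  · simp
  · have hpos : ∀ s ∈ Set.Icc ε Λ, 0 < u + s * δ := fun s hs => by nlinarith [hs.1]
    have hd : ∀ s ∈ Set.uIcc ε Λ, HasDerivAt (fun s => -(δ * u ^ 2) / (u + s * δ))
        (δ ^ 2 * u ^ 2 / (u + s * δ) ^ 2) s := by
      intro s hs
      rw [Set.uIcc_of_le hεΛ] at hs
      have h1 : HasDerivAt (fun s => u + s * δ) δ s := by
        simpa using ((hasDerivAt_id s).mul_const δ).const_add u
      refine ((hasDerivAt_const s (-(δ * u ^ 2))).fun_div h1 (hpos s hs).ne').congr_deriv ?_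
      ring
    rw [intervalIntegral.integral_eq_sub_of_hasDerivAt hd]
    · have h1 : 0 ≤ δ * u ^ 2 / (u + Λ * δ) :=
        div_nonneg (by positivity) (hpos Λ ⟨hεΛ, le_rfl⟩).le
      have h2 : δ * u ^ 2 / (u + ε * δ) ≤ δ * u := by
        rw [div_le_iff₀ (hpos ε ⟨le_rfl, hεΛ⟩)]
        nlinarith [mul_nonneg (mul_nonneg hδ hu) (mul_nonneg hε.le hδ)]
      rw [neg_div, neg_div]
      linarith
    · refine (ContinuousOn.intervalIntegrable_of_Icc hεΛ ?_)
      exact ContinuousOn.div continuousOn_const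
        ((continuousOn_const.add (continuousOn_id.mul continuousOn_const)).pow 2)
        fun s hs => (pow_pos (hpos s hs) 2).ne'

lemma integral_headFun_ge (X : Matrix m n ℂ) {Q : Matrix n n ℂ} (hQ : Q.PosSemidef) {δ ε Λ : ℝ}
    (hδ : 0 ≤ δ) (hδu : 0 < (Xᴴ * X).trace.re → 0 < δ) (hε : 0 < ε) (hεΛ : ε ≤ Λ)
    (hΛ : ∀ i, (posSemidef_conjTranspose_mul_self X).1.eigenvalues i / δ ≤ Λ) :
    (Xᴴ * X).trace.re * Real.log Λ + Sent (Xᴴ * X) + (Xᴴ * X).trace.re
        + (Xᴴ * X).trace.re * Real.log δ - Fintype.card n * (δ * (Q.trace.re + ε))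
        - 8 * (Fintype.card m + 1) * (δ * (Xᴴ * X).trace.re)
      ≤ ∫ s in ε..Λ, headFun X Q δ s := by
  have hU := posSemidef_conjTranspose_mul_self X
  have hw : 0 ≤ Q.trace.re := (Complex.le_def.1 hQ.trace_nonneg).1
  have hu : 0 ≤ (Xᴴ * X).trace.re := (Complex.le_def.1 hU.trace_nonneg).1
  obtain ⟨hc1, hc2⟩ := continuousOn_headFun X hQ (Λ := Λ) hδ hε
  have hsum : (Xᴴ * X).trace.re * Real.log Λ + Sent (Xᴴ * X) + (Xᴴ * X).trace.re
      + (Xᴴ * X).trace.re * Real.log δ - Fintype.card n * (δ * (Q.trace.re + ε))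
      ≤ ∫ s in ε..Λ, ∑ i, min (hU.1.eigenvalues i / (Q.trace.re + s)) δ := by
    rw [intervalIntegral.integral_finsetSum]
    · have : ∀ i, hU.1.eigenvalues i * Real.log Λ + Real.negMulLog (hU.1.eigenvalues i)
          + hU.1.eigenvalues i + hU.1.eigenvalues i * Real.log δ - δ * (Q.trace.re + ε)
          ≤ ∫ s in ε..Λ, min (hU.1.eigenvalues i / (Q.trace.re + s)) δ := by
        intro i
        refine integral_min_div_ge (hU.eigenvalues_nonneg i) hw hδ (fun h => hδu ?_) hε hεΛ (hΛ i)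
        rw [trace_re_eq_sum hU.1]
        exact h.trans_le (Finset.single_le_sum (fun j _ => hU.eigenvalues_nonneg j)
          (Finset.mem_univ i))
      refine le_trans (le_of_eq ?_) (Finset.sum_le_sum fun i _ => this i)
      simp only [Finset.sum_sub_distrib, Finset.sum_add_distrib, ← Finset.sum_mul]
      rw [← Sent_eq_sum hU.1, ← trace_re_eq_sum hU.1]
      simp
      ring
    · intro i _
      exact (ContinuousOn.inf (ContinuousOn.div continuousOn_const
        (continuousOn_const.add continuousOn_id) fun s hs => by simp only [Pi.add_apply, id_eq]; linarith [hs.1])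
        continuousOn_const).intervalIntegrable_of_Icc hεΛ
  have herr := integral_err_le hu hδ hε hεΛ
  unfold headFun
  rw [intervalIntegral.integral_sub (hc1.intervalIntegrable_of_Icc hεΛ)
    ((hc2.intervalIntegrable_of_Icc hεΛ).const_mul _),
    intervalIntegral.integral_const_mul]
  nlinarith [mul_le_mul_of_nonneg_left herr
    (show (0 : ℝ) ≤ 8 * (Fintype.card m + 1) by positivity)]

lemma intervalIntegrable_stepCnt (X : Matrix m n ℂ) {Q : Matrix n n ℂ} (hQ : Q.PosSemidef) {t : ℝ}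
    (ht : 0 ≤ t) (ε Λ : ℝ) : IntervalIntegrable (stepCnt X hQ t) volume ε Λ := by
  refine Antitone.intervalIntegrable fun a b hab => ?_
  simp only [stepCnt, cnt_eq_sum]
  refine Finset.sum_le_sum fun i _ => ?_
  have := mul_le_mul_of_nonneg_left hab ht
  split_ifs <;> norm_num
  linarith

lemma integral_stepCnt_ge (X : Matrix m n ℂ) {Q : Matrix n n ℂ} (hQ : Q.PosSemidef) {t ε Λ : ℝ}
    (ht : 0 < t) (hεΛ : ε ≤ Λ)
    (hΛ : ∀ i, (stepMat_isHermitian X hQ t).eigenvalues i / t ≤ Λ) :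
    ((Xᴴ * X).trace.re - t * Q.trace.re) / t - Fintype.card n * ε
      ≤ ∫ s in ε..Λ, stepCnt X hQ t s := by
  set hA := stepMat_isHermitian X hQ t
  have e : ∀ s, stepCnt X hQ t s = ∑ i, if s < hA.eigenvalues i / t then (1 : ℝ) else 0 := by
    intro s
    rw [stepCnt, cnt_eq_sum]
    refine Finset.sum_congr rfl fun i _ => if_congr ?_ rfl rfl
    rw [lt_div_iff₀ ht, mul_comm]
  simp only [e]
  have hanti : ∀ r : ℝ, Antitone (fun s : ℝ => if s < r then (1 : ℝ) else 0) := by
    intro r x y hxy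
    simp only
    split_ifs <;> norm_num
    linarith
  rw [intervalIntegral.integral_finsetSum fun i _ => (hanti _).intervalIntegrable]
  refine le_trans ?_ (Finset.sum_le_sum fun i _ => (show hA.eigenvalues i / t - ε ≤ _ by
    rw [integral_ite_lt hεΛ, min_eq_left (hΛ i)]
    linarith [le_max_left (hA.eigenvalues i / t) ε]))
  rw [Finset.sum_sub_distrib, ← Finset.sum_div, ← trace_re_eq_sum hA]
  simp

lemma coef_stepCnt_ge (X : Matrix m n ℂ) {Q : Matrix n n ℂ} (hQ : Q.PosSemidef) {σ c ε Λ : ℝ}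
    (hσ : 0 < σ) (hεΛ : ε ≤ Λ) (hc : 0 ≤ c) (hc0 : (Xᴴ * X).trace.re = 0 → c = 0)
    (hΛ : ∀ i, (stepMat_isHermitian X hQ ((Xᴴ * X).trace.re / (Q.trace.re + σ))).eigenvalues i
      / ((Xᴴ * X).trace.re / (Q.trace.re + σ)) ≤ Λ) :
    c * (σ - Fintype.card n * ε)
      ≤ c * ∫ s in ε..Λ, stepCnt X hQ ((Xᴴ * X).trace.re / (Q.trace.re + σ)) s := by
  have hw : 0 ≤ Q.trace.re := (Complex.le_def.1 hQ.trace_nonneg).1
  have hu : 0 ≤ (Xᴴ * X).trace.re :=
    (Complex.le_def.1 (posSemidef_conjTranspose_mul_self X).trace_nonneg).1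
  rcases hu.eq_or_lt with h | h
  · rw [hc0 h.symm]
    simp
  · refine mul_le_mul_of_nonneg_left (le_trans (le_of_eq ?_)
      (integral_stepCnt_ge X hQ (div_pos h (by linarith)) hεΛ hΛ)) hc
    field_simp
    ring

lemma integral_log_add {y ε Λ : ℝ} (hy : 0 ≤ y) (hε : 0 < ε) (hεΛ : ε ≤ Λ) :
    y * Real.log Λ + y + (Λ * Real.log Λ - Λ + ε) - (y + ε) * Real.log (y + ε)
        ≤ (∫ s in ε..Λ, Real.log (y + s)) ∧
      (∫ s in ε..Λ, Real.log (y + s))
        ≤ y * Real.log Λ + y + y ^ 2 / Λ + (Λ * Real.log Λ - Λ + ε)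
          - (y + ε) * Real.log (y + ε) := by
  have hΛ : 0 < Λ := hε.trans_le hεΛ
  rw [intervalIntegral.integral_comp_add_left Real.log y, integral_log]
  have e : Real.log (y + Λ) = Real.log Λ + Real.log (1 + y / Λ) := by
    rw [← Real.log_mul hΛ.ne' (by positivity)]
    congr 1
    field_simp
    ring
  have hp : (0 : ℝ) < 1 + y / Λ := by positivity
  have u1 := Real.log_le_sub_one_of_pos hp
  have l1 := Real.one_sub_inv_le_log_of_pos hp
  have u2 := mul_le_mul_of_nonneg_left u1 (show 0 ≤ y + Λ by positivity)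
  have l2 := mul_le_mul_of_nonneg_left l1 (show 0 ≤ y + Λ by positivity)
  have eu : (y + Λ) * (1 + y / Λ - 1) = y + y ^ 2 / Λ := by field_simp; ring
  have el : (y + Λ) * (1 - (1 + y / Λ)⁻¹) = y := by field_simp; ring
  rw [eu] at u2
  rw [el] at l2
  rw [e]
  constructor <;> linarith

lemma intervalIntegrable_log_add {y ε Λ : ℝ} (hy : 0 ≤ y) (hε : 0 < ε) (hεΛ : ε ≤ Λ) :
    IntervalIntegrable (fun s => Real.log (y + s)) volume ε Λ :=
  (ContinuousOn.log (continuousOn_const.add continuousOn_id)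
    fun s hs => by
      have := hs.1
      show y + id s ≠ 0
      simp only [id_eq]
      linarith).intervalIntegrable_of_Icc hεΛ

variable (X₀ X₁ : Matrix m n ℂ) (Q N : Matrix n n ℂ)

/-- The block matrix of the compression inequality. -/
noncomputable def blockMat : Matrix (n ⊕ n) (n ⊕ n) ℂ :=
  fromBlocks (X₀ᴴ * X₀ + Q) (X₀ᴴ * X₁) (X₁ᴴ * X₀) (X₁ᴴ * X₁ + N)

lemma blockMat_eq :
    blockMat X₀ X₁ Q N = (fromCols X₀ X₁)ᴴ * fromCols X₀ X₁ + fromBlocks Q 0 0 N := by
  rw [conjTranspose_fromCols_eq_fromRows_conjTranspose, fromRows_mul_fromCols, fromBlocks_add,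
    blockMat]
  simp

variable {X₀ X₁ Q N}

lemma blockMat_posSemidef (hQ : Q.PosSemidef) (hN : N.PosSemidef) :
    (blockMat X₀ X₁ Q N).PosSemidef := by
  rw [blockMat_eq]
  refine (posSemidef_conjTranspose_mul_self _).add ?_
  have h : fromBlocks Q 0 0 N = (fromBlocks (sfun hQ.1 Real.sqrt) 0 0 (sfun hN.1 Real.sqrt))ᴴ
      * fromBlocks (sfun hQ.1 Real.sqrt) 0 0 (sfun hN.1 Real.sqrt) := by
    rw [fromBlocks_conjTranspose, fromBlocks_multiply]
    rw [show (sfun hQ.1 Real.sqrt)ᴴ = sfun hQ.1 Real.sqrt from conjDiag_isHermitian _ _,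
      show (sfun hN.1 Real.sqrt)ᴴ = sfun hN.1 Real.sqrt from conjDiag_isHermitian _ _]
    simp only [conjTranspose_zero, Matrix.zero_mul, Matrix.mul_zero, add_zero, zero_add, sfun_mul]
    rw [sfun_congr hQ.1 (g := fun x => x) fun i => Real.mul_self_sqrt (hQ.eigenvalues_nonneg i),
      sfun_congr hN.1 (g := fun x => x) fun i => Real.mul_self_sqrt (hN.eigenvalues_nonneg i),
      sfun_id, sfun_id]
  rw [h]
  exact posSemidef_conjTranspose_mul_self _

lemma ld_split (hQ : Q.PosSemidef) (hN : N.PosSemidef) {s : ℝ} (hs : 0 < s) :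
    ∑ i, Real.log ((blockMat_posSemidef (X₀ := X₀) (X₁ := X₁) hQ hN).1.eigenvalues i + s)
      = ∑ i, Real.log (hQ.1.eigenvalues i + s) + ∑ i, Real.log (hN.1.eigenvalues i + s)
        + ld (1 + resMat hQ X₀ s + resMat hN X₁ s) := by
  have hY := blockMat_posSemidef (X₀ := X₀) (X₁ := X₁) hQ hN
  have ld_shift : ∀ {κ : Type u_1} [Fintype κ] [DecidableEq κ] (A : Matrix κ κ ℂ)
      (hA : A.PosSemidef), ∑ i, Real.log (hA.1.eigenvalues i + s) = ld (A + (s : ℂ) • 1)
        ∧ 0 < (A + (s : ℂ) • 1).det.re ∧ (A + (s : ℂ) • 1).det.im = 0 := by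
    intro κ _ _ A hA
    have h : A + (s : ℂ) • 1 = sfun hA.1 (fun q => q + s) := by
      rw [← sfun_add hA.1 (fun q => q) (fun _ => s), sfun_id, sfun_const]
    have hpos : ∀ i, 0 < hA.1.eigenvalues i + s := fun i => by linarith [hA.eigenvalues_nonneg i]
    rw [h, ld_sfun hA.1 hpos, sfun, det_conjDiag (eigU_right hA.1), Complex.ofReal_re,
      Complex.ofReal_im]
    exact ⟨rfl, Finset.prod_pos fun i _ => hpos i, rfl⟩
  obtain ⟨eQ, pQ, iQ⟩ := ld_shift Q hQ
  obtain ⟨eN, pN, iN⟩ := ld_shift N hN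
  obtain ⟨eY, pY, -⟩ := ld_shift _ hY
  rw [eQ, eN, eY]
  obtain ⟨hSQ, hQS⟩ := sfun_shift_mul hQ hs
  obtain ⟨hSN, hNS⟩ := sfun_shift_mul hN hs
  set G := fromCols X₀ X₁
  set D := fromBlocks (Q + (s : ℂ) • 1) 0 0 (N + (s : ℂ) • 1)
  set Di := fromBlocks (sfun hQ.1 (fun q => (q + s)⁻¹)) 0 0 (sfun hN.1 (fun q => (q + s)⁻¹))
  have hDD : D * Di = 1 := by
    rw [fromBlocks_multiply, ← fromBlocks_one]
    simp only [Matrix.zero_mul, Matrix.mul_zero, add_zero, zero_add, hQS, hNS]
  have hY2 : blockMat X₀ X₁ Q N + (s : ℂ) • 1 = D * (1 + Di * Gᴴ * G) := by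
    rw [Matrix.mul_add, Matrix.mul_one, ← Matrix.mul_assoc, ← Matrix.mul_assoc, hDD, Matrix.one_mul,
      blockMat_eq, ← fromBlocks_one, fromBlocks_smul, add_assoc, fromBlocks_add, add_comm]
    simp only [D, smul_zero, add_zero]
    rfl
  have hG : G * (Di * Gᴴ) = resMat hQ X₀ s + resMat hN X₁ s := by
    rw [← Matrix.mul_assoc, fromCols_mul_fromBlocks, conjTranspose_fromCols_eq_fromRows_conjTranspose,
      fromCols_mul_fromRows]
    simp [resMat]
  have hdet : (blockMat X₀ X₁ Q N + (s : ℂ) • 1).det = (Q + (s : ℂ) • 1).det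
      * (N + (s : ℂ) • 1).det * (1 + resMat hQ X₀ s + resMat hN X₁ s).det := by
    rw [hY2, det_mul, det_fromBlocks_zero₁₂, det_one_add_mul_comm, hG, add_assoc]
  have hM : 0 < (1 + resMat hQ X₀ s + resMat hN X₁ s).det.re :=
    (Complex.lt_def.1 (((PosDef.one).add_posSemidef (resMat_posSemidef hQ X₀ hs)).add_posSemidef
      (resMat_posSemidef hN X₁ hs)).det_pos).1
  simp only [ld]
  rw [hdet, Complex.mul_re, Complex.mul_re, Complex.mul_im, iQ, iN]
  simp only [mul_zero, zero_mul, sub_zero, add_zero]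
  rw [Real.log_mul (mul_pos pQ pN).ne' hM.ne', Real.log_mul pQ.ne' pN.ne']

/-- The regularised entropy. -/
noncomputable def entEps {A : Matrix n n ℂ} (hA : A.IsHermitian) (ε : ℝ) : ℝ :=
  ∑ i, -((hA.eigenvalues i + ε) * Real.log (hA.eigenvalues i + ε))

lemma entEps_tendsto {A : Matrix n n ℂ} (hA : A.IsHermitian) :
    Tendsto (entEps hA) (𝓝[>] 0) (𝓝 (Sent A)) := by
  refine tendsto_nhdsWithin_of_tendsto_nhds ?_
  rw [Sent_eq_sum hA]
  refine tendsto_finsetSum _ fun i _ => ?_
  have h := (Real.continuous_negMulLog.comp (continuous_const.add continuous_id)).tendsto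
    (0 : ℝ) (f := fun ε : ℝ => Real.negMulLog (hA.eigenvalues i + ε))
  rw [add_zero] at h
  refine h.congr fun ε => ?_
  simp only [Real.negMulLog]
  ring

lemma blockMat_trace :
    (blockMat X₀ X₁ Q N).trace.re
      = (X₀ᴴ * X₀).trace.re + Q.trace.re + ((X₁ᴴ * X₁).trace.re + N.trace.re) := by
  simp [blockMat, Matrix.trace, Fintype.sum_sum_type, Finset.sum_add_distrib]

/-- The inequality at fixed regularisation and grid. -/
lemma core_eps (hQ : Q.PosSemidef) (hN : N.PosSemidef) (σ : ℕ → ℝ) (hσ : ∀ k, 0 < σ k)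
    (hσm : ∀ k, σ (k + 1) ≤ σ k) (K : ℕ) {ε : ℝ} (hε : 0 < ε) :
    Sent (X₀ᴴ * X₀) + Sent (X₁ᴴ * X₁)
      + (X₀ᴴ * X₀).trace.re * Real.log ((X₀ᴴ * X₀).trace.re / (Q.trace.re + σ 0))
      + (X₁ᴴ * X₁).trace.re * Real.log ((X₁ᴴ * X₁).trace.re / (N.trace.re + σ 0))
      - Fintype.card n * ((X₀ᴴ * X₀).trace.re / (Q.trace.re + σ 0) * (Q.trace.re + ε))
      - Fintype.card n * ((X₁ᴴ * X₁).trace.re / (N.trace.re + σ 0) * (N.trace.re + ε))
      - 8 * (Fintype.card m + 1) *
          ((X₀ᴴ * X₀).trace.re / (Q.trace.re + σ 0) * (X₀ᴴ * X₀).trace.re)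
      - 8 * (Fintype.card m + 1) *
          ((X₁ᴴ * X₁).trace.re / (N.trace.re + σ 0) * (X₁ᴴ * X₁).trace.re)
      + ∑ k ∈ Finset.range K, (σ (k + 1) - Fintype.card n * ε) *
          ((((X₀ᴴ * X₀).trace.re / (Q.trace.re + σ (k + 1))
              - (X₀ᴴ * X₀).trace.re / (Q.trace.re + σ k))
            + ((X₁ᴴ * X₁).trace.re / (N.trace.re + σ (k + 1))
              - (X₁ᴴ * X₁).trace.re / (N.trace.re + σ k))) /
            (1 + (X₀ᴴ * X₀).trace.re / (Q.trace.re + σ (k + 1))
              + (X₁ᴴ * X₁).trace.re / (N.trace.re + σ (k + 1))))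
    ≤ entEps (blockMat_posSemidef (X₀ := X₀) (X₁ := X₁) hQ hN).1 ε
        - entEps hQ.1 ε - entEps hN.1 ε := by
  set hY := blockMat_posSemidef (X₀ := X₀) (X₁ := X₁) hQ hN
  set u := (X₀ᴴ * X₀).trace.re with hu_def
  set v := (X₁ᴴ * X₁).trace.re with hv_def
  set w := Q.trace.re with hw_def
  set z := N.trace.re with hz_def
  have hu : 0 ≤ u := (Complex.le_def.1 (posSemidef_conjTranspose_mul_self X₀).trace_nonneg).1
  have hv : 0 ≤ v := (Complex.le_def.1 (posSemidef_conjTranspose_mul_self X₁).trace_nonneg).1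
  have hw : 0 ≤ w := (Complex.le_def.1 hQ.trace_nonneg).1
  have hz : 0 ≤ z := (Complex.le_def.1 hN.trace_nonneg).1
  set x : ℕ → ℝ := fun k => u / (w + σ k) with hx_def
  set y : ℕ → ℝ := fun k => v / (z + σ k) with hy_def
  have hx : ∀ k, 0 ≤ x k := fun k => div_nonneg hu (by linarith [hσ k])
  have hy : ∀ k, 0 ≤ y k := fun k => div_nonneg hv (by linarith [hσ k])
  have hxm : ∀ k, x k ≤ x (k + 1) := fun k =>
    div_le_div_of_nonneg_left hu (by linarith [hσ (k + 1)]) (by linarith [hσm k])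
  have hym : ∀ k, y k ≤ y (k + 1) := fun k =>
    div_le_div_of_nonneg_left hv (by linarith [hσ (k + 1)]) (by linarith [hσm k])
  set cx : ℕ → ℝ := fun k => (x (k + 1) - x k) / (1 + x (k + 1) + y (k + 1)) with hcx_def
  set cy : ℕ → ℝ := fun k => (y (k + 1) - y k) / (1 + x (k + 1) + y (k + 1)) with hcy_def
  have hden : ∀ k, 0 < 1 + x (k + 1) + y (k + 1) := fun k => by linarith [hx (k + 1), hy (k + 1)]
  have hcx : ∀ k, 0 ≤ cx k := fun k => div_nonneg (sub_nonneg.2 (hxm k)) (hden k).le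
  have hcy : ∀ k, 0 ≤ cy k := fun k => div_nonneg (sub_nonneg.2 (hym k)) (hden k).le
  have hlim : Tendsto (fun Λ : ℝ => entEps hY.1 ε - entEps hQ.1 ε - entEps hN.1 ε
      + (∑ i, hY.1.eigenvalues i ^ 2) / Λ) atTop
      (𝓝 (entEps hY.1 ε - entEps hQ.1 ε - entEps hN.1 ε)) := by
    simpa using (tendsto_const_nhds.div_atTop tendsto_id).const_add
      (entEps hY.1 ε - entEps hQ.1 ε - entEps hN.1 ε)
  refine ge_of_tendsto hlim ?_
  filter_upwards [eventually_ge_atTop ε,
    eventually_all.2 fun i => eventually_ge_atTop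
      ((posSemidef_conjTranspose_mul_self X₀).1.eigenvalues i / x 0),
    eventually_all.2 fun i => eventually_ge_atTop
      ((posSemidef_conjTranspose_mul_self X₁).1.eigenvalues i / y 0),
    (Finset.eventually_all (Finset.range K)).2 fun k _ => eventually_all.2 fun i =>
      eventually_ge_atTop ((stepMat_isHermitian X₀ hQ (x (k + 1))).eigenvalues i / x (k + 1)),
    (Finset.eventually_all (Finset.range K)).2 fun k _ => eventually_all.2 fun i =>
      eventually_ge_atTop ((stepMat_isHermitian X₁ hN (y (k + 1))).eigenvalues i / y (k + 1))]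
    with Λ hεΛ hΛ0 hΛ1 hΛk0 hΛk1
  have hpt : ∀ s ∈ Set.Icc ε Λ, headFun X₀ Q (x 0) s + headFun X₁ N (y 0) s
      + ∑ k ∈ Finset.range K, (cx k * stepCnt X₀ hQ (x (k + 1)) s
          + cy k * stepCnt X₁ hN (y (k + 1)) s)
      ≤ ∑ i, Real.log (hY.1.eigenvalues i + s) - ∑ i, Real.log (hQ.1.eigenvalues i + s)
        - ∑ i, Real.log (hN.1.eigenvalues i + s) := by
    intro s hs
    have hs0 : 0 < s := hε.trans_le hs.1
    rw [ld_split hQ hN hs0]
    have hp := ld_path (resMat_posSemidef hQ X₀ hs0) (resMat_posSemidef hN X₁ hs0) x y (hx 0)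
      (hy 0) hxm hym K
    have e1 := headFun_le X₀ hQ (hx 0) hs0
    have e2 := headFun_le X₁ hN (hy 0) hs0
    have e3 : ∑ k ∈ Finset.range K, (cx k * stepCnt X₀ hQ (x (k + 1)) s
          + cy k * stepCnt X₁ hN (y (k + 1)) s)
        ≤ ∑ k ∈ Finset.range K, ((x (k + 1) - x k) * cnt (resMat_posSemidef hQ X₀ hs0).1 (x (k + 1))
          + (y (k + 1) - y k) * cnt (resMat_posSemidef hN X₁ hs0).1 (y (k + 1)))
          / (1 + x (k + 1) + y (k + 1)) := by
      refine Finset.sum_le_sum fun k _ => ?_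
      rw [add_div, mul_div_right_comm, mul_div_right_comm]
      exact add_le_add (mul_le_mul_of_nonneg_left (stepCnt_le X₀ hQ (hx _) hs0) (hcx k))
        (mul_le_mul_of_nonneg_left (stepCnt_le X₁ hN (hy _) hs0) (hcy k))
    linarith
  have iH : ∀ (X : Matrix m n ℂ) {P : Matrix n n ℂ}, P.PosSemidef → ∀ {δ : ℝ}, 0 ≤ δ →
      IntervalIntegrable (headFun X P δ) volume ε Λ := by
    intro X P hP δ hδ
    obtain ⟨c1, c2⟩ := continuousOn_headFun X hP (Λ := Λ) hδ hε
    exact (c1.sub (continuousOn_const.mul c2)).intervalIntegrable_of_Icc hεΛ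
  have iK : ∀ k, IntervalIntegrable (fun s => cx k * stepCnt X₀ hQ (x (k + 1)) s
      + cy k * stepCnt X₁ hN (y (k + 1)) s) volume ε Λ := fun k =>
    ((intervalIntegrable_stepCnt X₀ hQ (hx _) ε Λ).const_mul _).add
      ((intervalIntegrable_stepCnt X₁ hN (hy _) ε Λ).const_mul _)
  have iS : IntervalIntegrable (fun s => ∑ k ∈ Finset.range K,
      (cx k * stepCnt X₀ hQ (x (k + 1)) s + cy k * stepCnt X₁ hN (y (k + 1)) s)) volume ε Λ := by
    simpa [Finset.sum_fn] using IntervalIntegrable.sum (Finset.range K) fun k _ => iK k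
  have iL : ∀ {κ : Type u_1} [Fintype κ] [DecidableEq κ] {A : Matrix κ κ ℂ} (hA : A.PosSemidef),
      IntervalIntegrable (fun s => ∑ i, Real.log (hA.1.eigenvalues i + s)) volume ε Λ := by
    intro κ _ _ A hA
    simpa [Finset.sum_fn] using IntervalIntegrable.sum Finset.univ fun i _ =>
      intervalIntegrable_log_add (hA.eigenvalues_nonneg i) hε hεΛ
  have hint := intervalIntegral.integral_mono_on hεΛ
    (((iH X₀ hQ (hx 0)).add (iH X₁ hN (hy 0))).add iS)
    (((iL hY).sub (iL hQ)).sub (iL hN)) hpt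
  rw [intervalIntegral.integral_add ((iH X₀ hQ (hx 0)).add (iH X₁ hN (hy 0))) iS,
    intervalIntegral.integral_add (iH X₀ hQ (hx 0)) (iH X₁ hN (hy 0)),
    intervalIntegral.integral_finsetSum fun k _ => iK k,
    intervalIntegral.integral_sub ((iL hY).sub (iL hQ)) (iL hN),
    intervalIntegral.integral_sub (iL hY) (iL hQ),
    intervalIntegral.integral_finsetSum fun i _ =>
      intervalIntegrable_log_add (hY.eigenvalues_nonneg i) hε hεΛ,
    intervalIntegral.integral_finsetSum fun i _ =>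
      intervalIntegrable_log_add (hQ.eigenvalues_nonneg i) hε hεΛ,
    intervalIntegral.integral_finsetSum fun i _ =>
      intervalIntegrable_log_add (hN.eigenvalues_nonneg i) hε hεΛ] at hint
  have dpos : ∀ a b : ℝ, 0 < a → 0 ≤ b → 0 < a / (b + σ 0) := fun a b ha hb =>
    div_pos ha (by linarith [hσ 0])
  have l0 := integral_headFun_ge X₀ hQ (hx 0) (fun h => dpos _ _ h hw) hε hεΛ hΛ0
  have l1 := integral_headFun_ge X₁ hN (hy 0) (fun h => dpos _ _ h hz) hε hεΛ hΛ1
  have lS : ∑ k ∈ Finset.range K, (σ (k + 1) - Fintype.card n * ε) *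
      (((x (k + 1) - x k) + (y (k + 1) - y k)) / (1 + x (k + 1) + y (k + 1)))
      ≤ ∑ k ∈ Finset.range K, ∫ s in ε..Λ, (cx k * stepCnt X₀ hQ (x (k + 1)) s
          + cy k * stepCnt X₁ hN (y (k + 1)) s) := by
    refine Finset.sum_le_sum fun k hk => ?_
    rw [intervalIntegral.integral_add
      ((intervalIntegrable_stepCnt X₀ hQ (hx _) ε Λ).const_mul _)
      ((intervalIntegrable_stepCnt X₁ hN (hy _) ε Λ).const_mul _),
      intervalIntegral.integral_const_mul, intervalIntegral.integral_const_mul]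
    have c0 := coef_stepCnt_ge X₀ hQ (hσ (k + 1)) hεΛ (hcx k) (fun h => ?_) (hΛk0 k hk)
    · have c1 := coef_stepCnt_ge X₁ hN (hσ (k + 1)) hεΛ (hcy k) (fun h => ?_) (hΛk1 k hk)
      · rw [add_div]
        simp only [hx_def, hy_def, hcx_def, hcy_def] at c0 c1 ⊢
        linarith
      · simp [hcy_def, hy_def, hv_def, h]
    · simp [hcx_def, hx_def, hu_def, h]
  have uY : ∑ i, (∫ s in ε..Λ, Real.log (hY.1.eigenvalues i + s))
      ≤ (u + w + (v + z)) * Real.log Λ + (u + w + (v + z)) + (∑ i, hY.1.eigenvalues i ^ 2) / Λ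
        + (Fintype.card n + Fintype.card n) * (Λ * Real.log Λ - Λ + ε) + entEps hY.1 ε := by
    refine (Finset.sum_le_sum fun i _ =>
      (integral_log_add (hY.eigenvalues_nonneg i) hε hεΛ).2).trans (le_of_eq ?_)
    rw [← blockMat_trace, trace_re_eq_sum hY.1, entEps]
    simp only [Finset.sum_sub_distrib, Finset.sum_add_distrib, Finset.sum_neg_distrib,
      ← Finset.sum_mul, ← Finset.sum_div]
    simp [Finset.sum_const, mul_add]
    ring
  have lA : ∀ {A : Matrix n n ℂ} (hA : A.PosSemidef),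
      A.trace.re * Real.log Λ + A.trace.re + Fintype.card n * (Λ * Real.log Λ - Λ + ε)
        + entEps hA.1 ε ≤ ∑ i, (∫ s in ε..Λ, Real.log (hA.1.eigenvalues i + s)) := by
    intro A hA
    refine le_trans (le_of_eq ?_) (Finset.sum_le_sum fun i _ =>
      (integral_log_add (hA.eigenvalues_nonneg i) hε hεΛ).1)
    rw [trace_re_eq_sum hA.1, entEps]
    simp only [Finset.sum_sub_distrib, Finset.sum_add_distrib, Finset.sum_neg_distrib,
      ← Finset.sum_mul]
    simp
    ring
  have lQ := lA hQ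
  have lN := lA hN
  simp only [hx_def, hy_def] at l0 l1 lS hint
  linarith

end Vale.Agent.P358
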