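import Vale.Agent.P358.Core

/-!
The entropic compression inequality, obtained from the regularised bound by three limits.
-/

open Matrix MeasureTheory Filter Topology
open scoped ComplexOrder

namespace Vale.Agent.P358

variable {n m : Type*} [Fintype n] [DecidableEq n] [Fintype m] [DecidableEq m]
variable {X₀ X₁ : Matrix m n ℂ} {Q N : Matrix n n ℂ}

/-- The inequality at a fixed geometric grid. -/
lemma core_grid (hQ : Q.PosSemidef) (hN : N.PosSemidef) {R ρ : ℝ} (hR : 0 < R) (hρ : 1 ≤ ρ)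
    (K : ℕ) :
    Sent (X₀ᴴ * X₀) + Sent (X₁ᴴ * X₁)
      + (X₀ᴴ * X₀).trace.re * Real.log ((X₀ᴴ * X₀).trace.re / (Q.trace.re + R))
      + (X₁ᴴ * X₁).trace.re * Real.log ((X₁ᴴ * X₁).trace.re / (N.trace.re + R))
      - Fintype.card n * ((X₀ᴴ * X₀).trace.re / (Q.trace.re + R) * Q.trace.re)
      - Fintype.card n * ((X₁ᴴ * X₁).trace.re / (N.trace.re + R) * N.trace.re)
      - 8 * (Fintype.card m + 1) *
          ((X₀ᴴ * X₀).trace.re / (Q.trace.re + R) * (X₀ᴴ * X₀).trace.re)
      - 8 * (Fintype.card m + 1) *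
          ((X₁ᴴ * X₁).trace.re / (N.trace.re + R) * (X₁ᴴ * X₁).trace.re)
      + (Hf (X₀ᴴ * X₀).trace.re (X₁ᴴ * X₁).trace.re Q.trace.re N.trace.re R
          - Hf (X₀ᴴ * X₀).trace.re (X₁ᴴ * X₁).trace.re Q.trace.re N.trace.re (R / ρ ^ K)) / ρ ^ 2
    ≤ Sent (blockMat X₀ X₁ Q N) - Sent Q - Sent N := by
  set u := (X₀ᴴ * X₀).trace.re
  set v := (X₁ᴴ * X₁).trace.re
  set w := Q.trace.re
  set z := N.trace.re
  have hu : 0 ≤ u := (Complex.le_def.1 (posSemidef_conjTranspose_mul_self X₀).trace_nonneg).1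
  have hv : 0 ≤ v := (Complex.le_def.1 (posSemidef_conjTranspose_mul_self X₁).trace_nonneg).1
  have hw : 0 ≤ w := (Complex.le_def.1 hQ.trace_nonneg).1
  have hz : 0 ≤ z := (Complex.le_def.1 hN.trace_nonneg).1
  set σ : ℕ → ℝ := fun k => R / ρ ^ k with hσd
  have hσ : ∀ k, 0 < σ k := fun k => div_pos hR (pow_pos (by linarith) k)
  have hσs : ∀ k, σ (k + 1) = σ k / ρ := fun k => by
    simp only [hσd]; rw [pow_succ, div_div]
  have hσ0 : σ 0 = R := by simp [hσd]
  set c : ℕ → ℝ := fun k => ((u / (w + σ (k + 1)) - u / (w + σ k))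
      + (v / (z + σ (k + 1)) - v / (z + σ k))) / (1 + u / (w + σ (k + 1)) + v / (z + σ (k + 1)))
  have hY := blockMat_posSemidef (X₀ := X₀) (X₁ := X₁) hQ hN
  have hev : ∀ᶠ ε in 𝓝[>] (0 : ℝ), Sent (X₀ᴴ * X₀) + Sent (X₁ᴴ * X₁)
      + u * Real.log (u / (w + R)) + v * Real.log (v / (z + R))
      - Fintype.card n * (u / (w + R) * (w + ε)) - Fintype.card n * (v / (z + R) * (z + ε))
      - 8 * (Fintype.card m + 1) * (u / (w + R) * u)
      - 8 * (Fintype.card m + 1) * (v / (z + R) * v)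
      + ∑ k ∈ Finset.range K, (σ (k + 1) - Fintype.card n * ε) * c k
      ≤ entEps hY.1 ε - entEps hQ.1 ε - entEps hN.1 ε := by
    filter_upwards [self_mem_nhdsWithin] with ε hε
    have := core_eps (X₀ := X₀) (X₁ := X₁) hQ hN σ hσ
      (fun k => by rw [hσs]; exact div_le_self (hσ k).le hρ) K hε
    rw [hσ0] at this
    exact this
  have hlim := le_of_tendsto_of_tendsto (tendsto_nhdsWithin_of_tendsto_nhds
    ((by fun_prop : Continuous fun ε : ℝ => Sent (X₀ᴴ * X₀) + Sent (X₁ᴴ * X₁)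
      + u * Real.log (u / (w + R)) + v * Real.log (v / (z + R))
      - Fintype.card n * (u / (w + R) * (w + ε)) - Fintype.card n * (v / (z + R) * (z + ε))
      - 8 * (Fintype.card m + 1) * (u / (w + R) * u)
      - 8 * (Fintype.card m + 1) * (v / (z + R) * v)
      + ∑ k ∈ Finset.range K, (σ (k + 1) - Fintype.card n * ε) * c k).tendsto 0))
    (((entEps_tendsto hY.1).sub (entEps_tendsto hQ.1)).sub (entEps_tendsto hN.1)) hev
  simp only [mul_zero, add_zero, sub_zero] at hlim
  have htel : (Hf u v w z R - Hf u v w z (R / ρ ^ K)) / ρ ^ 2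
      ≤ ∑ k ∈ Finset.range K, σ (k + 1) * c k := by
    have h : Hf u v w z R - Hf u v w z (R / ρ ^ K)
        = ∑ k ∈ Finset.range K, (Hf u v w z (σ k) - Hf u v w z (σ (k + 1))) := by
      rw [Finset.sum_range_sub' (fun k => Hf u v w z (σ k)), hσ0]
    rw [h, Finset.sum_div]
    refine Finset.sum_le_sum fun k _ => ?_
    simp only [c, hσs k]
    exact step_scalar hu hv hw hz hρ (hσ k)
  linarith

/-- The entropic compression inequality. -/
theorem core_ineq (X₀ X₁ : Matrix m n ℂ) {Q N : Matrix n n ℂ} (hQ : Q.PosSemidef)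
    (hN : N.PosSemidef) :
    Sent (X₀ᴴ * X₀) + Sent (X₁ᴴ * X₁) + Sent Q + Sent N
      + Real.negMulLog (lamP (X₀ᴴ * X₀).trace.re (X₁ᴴ * X₁).trace.re Q.trace.re N.trace.re)
      + Real.negMulLog (lamM (X₀ᴴ * X₀).trace.re (X₁ᴴ * X₁).trace.re Q.trace.re N.trace.re)
      - Real.negMulLog (X₀ᴴ * X₀).trace.re - Real.negMulLog (X₁ᴴ * X₁).trace.re
      - Real.negMulLog Q.trace.re - Real.negMulLog N.trace.re
    ≤ Sent (fromBlocks (X₀ᴴ * X₀ + Q) (X₀ᴴ * X₁) (X₁ᴴ * X₀) (X₁ᴴ * X₁ + N)) := by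
  set u := (X₀ᴴ * X₀).trace.re
  set v := (X₁ᴴ * X₁).trace.re
  set w := Q.trace.re
  set z := N.trace.re
  have hu : 0 ≤ u := (Complex.le_def.1 (posSemidef_conjTranspose_mul_self X₀).trace_nonneg).1
  have hv : 0 ≤ v := (Complex.le_def.1 (posSemidef_conjTranspose_mul_self X₁).trace_nonneg).1
  have hw : 0 ≤ w := (Complex.le_def.1 hQ.trace_nonneg).1
  have hz : 0 ≤ z := (Complex.le_def.1 hN.trace_nonneg).1
  set S := Sent (blockMat X₀ X₁ Q N) - Sent Q - Sent N with hS
  set L : ℝ → ℝ := fun R => Sent (X₀ᴴ * X₀) + Sent (X₁ᴴ * X₁)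
      + u * Real.log (u / (w + R)) + v * Real.log (v / (z + R))
      - Fintype.card n * (u / (w + R) * w) - Fintype.card n * (v / (z + R) * z)
      - 8 * (Fintype.card m + 1) * (u / (w + R) * u)
      - 8 * (Fintype.card m + 1) * (v / (z + R) * v) with hL
  have hfix : ∀ R : ℝ, 1 ≤ R → L R + (Hf u v w z R - Hf u v w z R⁻¹) ≤ S := by
    intro R hR
    have hρ : Tendsto (fun K : ℕ => Real.exp (2 * Real.log R / K)) atTop (𝓝 1) := by
      simpa [Real.exp_zero, Function.comp_def] using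
        (Real.continuous_exp.tendsto 0).comp (tendsto_const_div_atTop_nhds_zero_nat (2 * Real.log R))
    have h1 : Tendsto (fun K : ℕ => L R + (Hf u v w z R - Hf u v w z R⁻¹)
        / Real.exp (2 * Real.log R / K) ^ 2) atTop
        (𝓝 (L R + (Hf u v w z R - Hf u v w z R⁻¹))) := by
      simpa using ((tendsto_const_nhds (x := Hf u v w z R - Hf u v w z R⁻¹)).div (hρ.pow 2)
        (by norm_num)).const_add (L R)
    refine le_of_tendsto h1 ?_
    filter_upwards [eventually_ge_atTop 1] with K hK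
    have hlog : 0 ≤ Real.log R := Real.log_nonneg hR
    have h2 := core_grid (X₀ := X₀) (X₁ := X₁) hQ hN (R := R)
      (ρ := Real.exp (2 * Real.log R / K)) (by linarith) (Real.one_le_exp (by positivity)) K
    have hR2 : R / Real.exp (2 * Real.log R / K) ^ K = R⁻¹ := by
      have hK0 : (K : ℝ) ≠ 0 := by positivity
      rw [← Real.exp_nat_mul, mul_div_cancel₀ _ hK0, two_mul, Real.exp_add,
        Real.exp_log (by linarith)]
      field_simp
    rw [hR2] at h2
    exact h2
  have hx : ∀ a b : ℝ, Tendsto (fun R : ℝ => a / (b + R)) atTop (𝓝 0) := fun a b =>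
    tendsto_const_nhds.div_atTop (tendsto_atTop_add_const_left _ b tendsto_id)
  have hlim : Tendsto (fun R : ℝ => (Hf u v w z R - u * Real.log (w + R) - v * Real.log (z + R))
      - Hf u v w z R⁻¹ + Sent (X₀ᴴ * X₀) + Sent (X₁ᴴ * X₁)
      - Real.negMulLog u - Real.negMulLog v
      - Fintype.card n * (u / (w + R) * w) - Fintype.card n * (v / (z + R) * z)
      - 8 * (Fintype.card m + 1) * (u / (w + R) * u)
      - 8 * (Fintype.card m + 1) * (v / (z + R) * v)) atTop
      (𝓝 (0 - (-Real.negMulLog (lamP u v w z) + -Real.negMulLog (lamM u v w z)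
        - -Real.negMulLog w - -Real.negMulLog z)
        + Sent (X₀ᴴ * X₀) + Sent (X₁ᴴ * X₁) - Real.negMulLog u - Real.negMulLog v
        - Fintype.card n * (0 * w) - Fintype.card n * (0 * z)
        - 8 * (Fintype.card m + 1) * (0 * u) - 8 * (Fintype.card m + 1) * (0 * v))) :=
    ((((((((tendsto_Hf_atTop u v w z).sub (tendsto_Hf_inv hu hv hw hz)).add_const _).add_const
      _).sub_const _).sub_const _).sub (((hx u w).mul_const w).const_mul _)).sub
      (((hx v z).mul_const z).const_mul _)).sub (((hx u w).mul_const u).const_mul _) |>.sub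
      (((hx v z).mul_const v).const_mul _)
  have hfin := le_of_tendsto hlim (b := S) ?_
  · simp only [hS, blockMat] at hfin
    linarith
  · filter_upwards [eventually_ge_atTop 1] with R hR
    refine le_trans (le_of_eq ?_) (hfix R hR)
    have e : ∀ a b : ℝ, 0 ≤ a → 0 ≤ b →
        a * Real.log (a / (b + R)) = -Real.negMulLog a - a * Real.log (b + R) := by
      intro a b ha hb
      rcases ha.eq_or_lt with rfl | h
      · simp
      · rw [Real.log_div h.ne' (by linarith), Real.negMulLog]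
        ring
    simp only [hL, e u w hu hw, e v z hv hz]
    ring

end Vale.Agent.P358
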