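import Mathlib

/-!
Definitions for the classical capacity of the generalized amplitude-damping channel (P358):
von Neumann entropy in bits, states, the channel, its tensor powers, the Holevo capacity and
the regularized (classical) capacity.
-/

open Matrix
open scoped ComplexOrder

namespace Vale.Agent.P358

/-- Von Neumann entropy in bits of a Hermitian matrix (zero for non-Hermitian input). -/
noncomputable def vnEntropy {d : Type*} [Fintype d] [DecidableEq d] (A : Matrix d d ℂ) : ℝ :=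
  if h : A.IsHermitian then ∑ i, -(h.eigenvalues i * Real.logb 2 (h.eigenvalues i)) else 0

/-- A state is a positive semidefinite matrix of trace one. -/
def IsState {d : Type*} [Fintype d] (A : Matrix d d ℂ) : Prop :=
  A.PosSemidef ∧ A.trace = 1

/-- The generalized amplitude-damping channel, extended linearly to all qubit matrices. -/
noncomputable def gadc (γ ν : ℝ) (ρ : Matrix (Fin 2) (Fin 2) ℂ) : Matrix (Fin 2) (Fin 2) ℂ :=
  !![((1 - γ * ν : ℝ) : ℂ) * ρ 0 0 + ((γ * (1 - ν) : ℝ) : ℂ) * ρ 1 1,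
      ((Real.sqrt (1 - γ) : ℝ) : ℂ) * ρ 0 1;
    ((Real.sqrt (1 - γ) : ℝ) : ℂ) * ρ 1 0,
      ((γ * ν : ℝ) : ℂ) * ρ 0 0 + ((1 - γ + γ * ν : ℝ) : ℂ) * ρ 1 1]

/-- The `n`-th tensor power of a linear qubit map, on matrices indexed by `Fin n → Fin 2`. -/
noncomputable def tensorPow (Φ : Matrix (Fin 2) (Fin 2) ℂ → Matrix (Fin 2) (Fin 2) ℂ) (n : ℕ)
    (ρ : Matrix (Fin n → Fin 2) (Fin n → Fin 2) ℂ) :
    Matrix (Fin n → Fin 2) (Fin n → Fin 2) ℂ :=
  Matrix.of fun x y => ∑ a, ∑ b, (∏ i, Φ (Matrix.single (a i) (b i) 1) (x i) (y i)) * ρ a b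

/-- The set of Holevo quantities of finite ensembles of input states. -/
def holevoSet {d d' : Type*} [Fintype d] [Fintype d'] [DecidableEq d']
    (Φ : Matrix d d ℂ → Matrix d' d' ℂ) : Set ℝ :=
  {v | ∃ (k : ℕ) (p : Fin k → ℝ) (ρ : Fin k → Matrix d d ℂ),
    (∀ a, 0 ≤ p a) ∧ (∑ a, p a = 1) ∧ (∀ a, IsState (ρ a)) ∧
    v = vnEntropy (∑ a, (p a : ℂ) • Φ (ρ a)) - ∑ a, p a * vnEntropy (Φ (ρ a))}

/-- The Holevo capacity: supremum of the Holevo quantities. -/
noncomputable def holevo {d d' : Type*} [Fintype d] [Fintype d'] [DecidableEq d']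
    (Φ : Matrix d d ℂ → Matrix d' d' ℂ) : ℝ :=
  sSup (holevoSet Φ)

/-- The classical capacity: regularized Holevo capacity. -/
noncomputable def capacity (Φ : Matrix (Fin 2) (Fin 2) ℂ → Matrix (Fin 2) (Fin 2) ℂ) : ℝ :=
  ⨆ n : ℕ, holevo (tensorPow Φ (n + 1)) / ((n + 1 : ℕ) : ℝ)

end Vale.Agent.P358
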