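import Vale.Agent.P358.Spectral

/-!
Entropy (in nats, internally) through the roots of the characteristic polynomial.
-/

open Matrix
open scoped ComplexOrder

namespace Vale.Agent.P358

variable {n m : Type*} [Fintype n] [DecidableEq n] [Fintype m] [DecidableEq m]



/-- Entropy in nats, computed from the roots of the characteristic polynomial. -/
noncomputable def Sent (A : Matrix n n ℂ) : ℝ :=
  (A.charpoly.roots.map fun z => Real.negMulLog z.re).sum

open Real (negMulLog)

lemma Sent_eq_sum {A : Matrix n n ℂ} (hA : A.IsHermitian) :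
    Sent A = ∑ i, negMulLog (hA.eigenvalues i) := by
  rw [Sent, hA.roots_charpoly_eq_eigenvalues, Multiset.map_map]
  simp only [Function.comp_def, Finset.sum_map_val]
  simp

lemma Sent_conjDiag {U : Matrix n n ℂ} (hU : Uᴴ * U = 1) (d : n → ℝ) :
    Sent (conjDiag U d) = ∑ i, negMulLog (d i) := by
  have h : (conjDiag U d).charpoly = (diagonal fun i => (d i : ℂ)).charpoly := by
    rw [conjDiag, charpoly_mul_comm, ← Matrix.mul_assoc, hU, Matrix.one_mul]
  rw [Sent, h, charpoly_diagonal, Polynomial.roots_prod]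
  · simp [Multiset.map_map]
  · simp [Finset.prod_ne_zero_iff, Polynomial.X_sub_C_ne_zero]

lemma Sent_diagonal (d : n → ℝ) :
    Sent (diagonal fun i => (d i : ℂ)) = ∑ i, negMulLog (d i) := by
  have := Sent_conjDiag (U := (1 : Matrix n n ℂ)) (by simp) d
  simpa [conjDiag] using this

lemma Sent_zero : Sent (0 : Matrix n n ℂ) = 0 := by
  have := Sent_diagonal (fun _ : n => (0 : ℝ))
  simpa using this

lemma Sent_reindex (e : n ≃ m) (A : Matrix n n ℂ) : Sent (reindex e e A) = Sent A := by
  rw [Sent, Sent, charpoly_reindex]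

lemma Sent_fromBlocks (A : Matrix n n ℂ) (B : Matrix m m ℂ) :
    Sent (fromBlocks A 0 0 B) = Sent A + Sent B := by
  rw [Sent, Sent, Sent, charpoly_fromBlocks_zero₁₂, Polynomial.roots_mul, Multiset.map_add,
    Multiset.sum_add]
  exact mul_ne_zero A.charpoly_monic.ne_zero B.charpoly_monic.ne_zero

lemma Sent_smul {A : Matrix n n ℂ} (hA : A.IsHermitian) (c : ℝ) :
    Sent ((c : ℂ) • A) = c * Sent A + negMulLog c * A.trace.re := by
  conv_lhs => rw [← herm_eq_conjDiag hA, conjDiag_smul, Sent_conjDiag (eigU_left hA)]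
  rw [Sent_eq_sum hA, trace_re_eq_sum hA, Finset.mul_sum, Finset.mul_sum, ← Finset.sum_add_distrib]
  refine Finset.sum_congr rfl fun i _ => ?_
  rw [Real.negMulLog_mul]
  ring

lemma vnEntropy_eq {A : Matrix n n ℂ} (hA : A.IsHermitian) :
    vnEntropy A = Sent A / Real.log 2 := by
  rw [vnEntropy, dif_pos hA, Sent_eq_sum hA, Finset.sum_div]
  refine Finset.sum_congr rfl fun i _ => ?_
  rw [Real.negMulLog, Real.logb]
  ring

lemma Sent_nonneg {A : Matrix n n ℂ} (hA : A.PosSemidef) (ht : A.trace.re ≤ 1) : 0 ≤ Sent A := by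
  rw [Sent_eq_sum hA.1]
  refine Finset.sum_nonneg fun i _ => Real.negMulLog_nonneg (hA.eigenvalues_nonneg i) ?_
  rw [trace_re_eq_sum hA.1] at ht
  exact le_trans (Finset.single_le_sum (fun j _ => hA.eigenvalues_nonneg j) (Finset.mem_univ i)) ht

/-- The larger root of `X ^ 2 - T X + D`. -/
noncomputable def rootP (T D : ℝ) : ℝ := (T + Real.sqrt (T ^ 2 - 4 * D)) / 2

/-- The smaller root of `X ^ 2 - T X + D`. -/
noncomputable def rootM (T D : ℝ) : ℝ := (T - Real.sqrt (T ^ 2 - 4 * D)) / 2

/-- Entropy of a two-by-two matrix with trace `T` and determinant `D`. -/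
noncomputable def s2 (T D : ℝ) : ℝ := negMulLog (rootP T D) + negMulLog (rootM T D)

lemma s2_of_roots (x y : ℝ) : s2 (x + y) (x * y) = negMulLog x + negMulLog y := by
  have h : (x + y) ^ 2 - 4 * (x * y) = (x - y) ^ 2 := by ring
  rw [s2, rootP, rootM, h, Real.sqrt_sq_eq_abs]
  rcases le_total y x with hxy | hxy
  · rw [abs_of_nonneg (sub_nonneg.2 hxy)]
    ring_nf
  · rw [abs_of_nonpos (sub_nonpos.2 hxy)]
    ring_nf

lemma Sent_fin_two {A : Matrix (Fin 2) (Fin 2) ℂ} (hA : A.IsHermitian) :
    Sent A = s2 A.trace.re A.det.re := by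
  rw [Sent_eq_sum hA, Fin.sum_univ_two, trace_re_eq_sum hA, Fin.sum_univ_two,
    hA.det_eq_prod_eigenvalues, Fin.prod_univ_two]
  simp [s2_of_roots]

/-- Entropy is at most the entropy of the diagonal in any orthonormal basis. -/
lemma Sent_le_diag {A : Matrix n n ℂ} (hA : A.PosSemidef) {W : Matrix n n ℂ} (hW : W * Wᴴ = 1) :
    Sent A ≤ ∑ i, negMulLog ((Wᴴ * A * W) i i).re := by
  set U := (hA.1.eigenvectorUnitary : Matrix n n ℂ)
  set V := Wᴴ * U
  have hVV : V * Vᴴ = 1 := by
    rw [conjTranspose_mul, conjTranspose_conjTranspose, Matrix.mul_assoc, ← Matrix.mul_assoc U,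
      eigU_right, Matrix.one_mul, mul_eq_one_comm.1 hW]
  have hVV' : Vᴴ * V = 1 := mul_eq_one_comm.1 hVV
  have hdiag : ∀ i, ((Wᴴ * A * W) i i).re = ∑ j, Complex.normSq (V i j) • hA.1.eigenvalues j := by
    intro i
    have h : Wᴴ * A * W = V * diagonal (fun j => (hA.1.eigenvalues j : ℂ)) * Vᴴ := by
      conv_lhs => rw [← herm_eq_conjDiag hA.1]
      simp only [conjDiag, V, conjTranspose_mul, conjTranspose_conjTranspose, Matrix.mul_assoc]
      rfl
    rw [h, Matrix.mul_apply, Complex.re_sum]
    refine Finset.sum_congr rfl fun j _ => ?_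
    simp [mul_diagonal, Complex.normSq_apply, Complex.mul_re, Complex.mul_im]
    ring
  have hrow : ∀ i, ∑ j, Complex.normSq (V i j) = 1 := by
    intro i
    have := congrArg Complex.re (congr_fun (congr_fun hVV i) i)
    simpa [Matrix.mul_apply, Complex.re_sum, Complex.normSq_apply, Complex.mul_re] using this
  have hcol : ∀ j, ∑ i, Complex.normSq (V i j) = 1 := by
    intro j
    have := congrArg Complex.re (congr_fun (congr_fun hVV' j) j)
    simpa [Matrix.mul_apply, Complex.re_sum, Complex.normSq_apply, Complex.mul_re] using this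
  calc Sent A = ∑ i, ∑ j, Complex.normSq (V i j) • negMulLog (hA.1.eigenvalues j) := by
        rw [Sent_eq_sum hA.1, Finset.sum_comm]
        refine Finset.sum_congr rfl fun j _ => ?_
        simp only [smul_eq_mul, ← Finset.sum_mul, hcol j, one_mul]
    _ ≤ ∑ i, negMulLog ((Wᴴ * A * W) i i).re := by
        refine Finset.sum_le_sum fun i _ => ?_
        rw [hdiag i]
        exact Real.concaveOn_negMulLog.le_map_sum (fun j _ => Complex.normSq_nonneg _) (hrow i)
          (fun j _ => Set.mem_Ici.2 (hA.eigenvalues_nonneg j))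

lemma negMulLog_le_cross {p q : ℝ} (hp : 0 ≤ p) (hq : 0 ≤ q) (h : 0 < p → 0 < q) :
    negMulLog p ≤ -p * Real.log q + (q - p) := by
  rcases hp.eq_or_lt with rfl | hp'
  · simpa using hq
  · have hq' := h hp'
    have := Real.log_le_sub_one_of_pos (div_pos hq' hp')
    rw [Real.log_div hq'.ne' hp'.ne'] at this
    have h2 := mul_le_mul_of_nonneg_left this hp
    have h3 : p * (q / p - 1) = q - p := by field_simp
    rw [Real.negMulLog]
    nlinarith

/-- Subadditivity for a qubit times an arbitrary system, with the qubit measured. -/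
lemma Sent_subadd {P C R : Matrix n n ℂ} (hY : (fromBlocks P C Cᴴ R).PosSemidef)
    (ht : P.trace.re + R.trace.re = 1) :
    Sent (fromBlocks P C Cᴴ R)
      ≤ negMulLog P.trace.re + negMulLog R.trace.re + Sent (P + R) := by
  have hP : P.PosSemidef := hY.submatrix (Sum.inl)
  have hR : R.PosSemidef := hY.submatrix (Sum.inr)
  have hS := hP.add hR
  set U := (hS.1.eigenvectorUnitary : Matrix n n ℂ)
  set l := hS.1.eigenvalues
  have hU : U * Uᴴ = 1 := eigU_right _
  have hU' : Uᴴ * U = 1 := eigU_left _
  set W := fromBlocks U 0 0 U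
  have hW : W * Wᴴ = 1 := by
    rw [fromBlocks_conjTranspose, fromBlocks_multiply]
    simp [hU, ← fromBlocks_one]
  set p : n → ℝ := fun i => ((Uᴴ * P * U) i i).re
  set r : n → ℝ := fun i => ((Uᴴ * R * U) i i).re
  have hp : ∀ i, 0 ≤ p i := fun i =>
    (Complex.le_def.1 ((hP.conjTranspose_mul_mul_same U).diag_nonneg)).1
  have hr : ∀ i, 0 ≤ r i := fun i =>
    (Complex.le_def.1 ((hR.conjTranspose_mul_mul_same U).diag_nonneg)).1
  have hpr : ∀ i, p i + r i = l i := by
    intro i
    have h2 : Uᴴ * (P + R) * U = diagonal (fun i => (l i : ℂ)) := by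
      conv_lhs => rw [← herm_eq_conjDiag hS.1]
      show Uᴴ * (U * diagonal _ * Uᴴ) * U = _
      simp only [Matrix.mul_assoc, hU', Matrix.mul_one]
      rw [← Matrix.mul_assoc, hU', Matrix.one_mul]
    have h3 := congrArg Complex.re (congr_fun (congr_fun h2 i) i)
    simpa [p, r, Matrix.mul_add, Matrix.add_mul, diagonal_apply_eq] using h3
  set a := P.trace.re
  set b := R.trace.re
  have hpa : ∑ i, p i = a := by
    show ∑ i, ((Uᴴ * P * U) i i).re = P.trace.re
    rw [← Complex.re_sum]
    show (Matrix.trace (Uᴴ * P * U)).re = _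
    rw [Matrix.trace_mul_cycle, hU, Matrix.one_mul]
  have hrb : ∑ i, r i = b := by
    show ∑ i, ((Uᴴ * R * U) i i).re = R.trace.re
    rw [← Complex.re_sum]
    show (Matrix.trace (Uᴴ * R * U)).re = _
    rw [Matrix.trace_mul_cycle, hU, Matrix.one_mul]
  have hsum : ∑ i, l i = 1 := by simp only [← hpr, Finset.sum_add_distrib, hpa, hrb, a, b, ht]
  have ha : 0 ≤ a := hpa ▸ Finset.sum_nonneg fun i _ => hp i
  have hb : 0 ≤ b := hrb ▸ Finset.sum_nonneg fun i _ => hr i
  calc Sent (fromBlocks P C Cᴴ R) ≤ ∑ i, negMulLog ((Wᴴ * fromBlocks P C Cᴴ R * W) i i).re :=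
        Sent_le_diag hY hW
    _ = ∑ i, negMulLog (p i) + ∑ i, negMulLog (r i) := by
        rw [Fintype.sum_sum_type, fromBlocks_conjTranspose, fromBlocks_multiply,
          fromBlocks_multiply]
        simp [p, r]
    _ ≤ ∑ i, (-p i * Real.log (a * l i) + (a * l i - p i))
          + ∑ i, (-r i * Real.log (b * l i) + (b * l i - r i)) := by
        refine add_le_add (Finset.sum_le_sum fun i _ => ?_) (Finset.sum_le_sum fun i _ => ?_)
        · refine negMulLog_le_cross (hp i) (mul_nonneg ha (by linarith [hpr i, hp i, hr i])) ?_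
          intro h
          have h1 : p i ≤ a := hpa ▸ Finset.single_le_sum (fun j _ => hp j) (Finset.mem_univ i)
          exact mul_pos (by linarith) (by linarith [hpr i, hr i])
        · refine negMulLog_le_cross (hr i) (mul_nonneg hb (by linarith [hpr i, hp i, hr i])) ?_
          intro h
          have h1 : r i ≤ b := hrb ▸ Finset.single_le_sum (fun j _ => hr j) (Finset.mem_univ i)
          exact mul_pos (by linarith) (by linarith [hpr i, hp i])
    _ = ∑ i, (-p i * Real.log a + negMulLog (l i) - r i * Real.log b) := by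
        rw [← Finset.sum_add_distrib]
        have e : ∀ i, -p i * Real.log (a * l i) + (a * l i - p i)
            + (-r i * Real.log (b * l i) + (b * l i - r i))
            = (-p i * Real.log a + negMulLog (l i) - r i * Real.log b)
              + ((a + b) * l i - l i) := by
          intro i
          have e1 : p i * Real.log (a * l i) = p i * Real.log a + p i * Real.log (l i) := by
            rcases (hp i).eq_or_lt with h | h
            · simp [← h]
            · have h1 : p i ≤ a := hpa ▸ Finset.single_le_sum (fun j _ => hp j) (Finset.mem_univ i)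
              rw [Real.log_mul (by linarith) (by linarith [hpr i, hr i])]
              ring
          have e2 : r i * Real.log (b * l i) = r i * Real.log b + r i * Real.log (l i) := by
            rcases (hr i).eq_or_lt with h | h
            · simp [← h]
            · have h1 : r i ≤ b := hrb ▸ Finset.single_le_sum (fun j _ => hr j) (Finset.mem_univ i)
              rw [Real.log_mul (by linarith) (by linarith [hpr i, hp i])]
              ring
          rw [neg_mul, e1, neg_mul, e2, Real.negMulLog, ← hpr i]
          ring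
        simp only [e]
        rw [Finset.sum_add_distrib, Finset.sum_sub_distrib (f := fun i => (a + b) * l i),
          ← Finset.mul_sum, show a + b = 1 from ht]
        ring
    _ = negMulLog a + negMulLog b + Sent (P + R) := by
        rw [Finset.sum_sub_distrib, Finset.sum_add_distrib, Sent_eq_sum hS.1, ← Finset.sum_mul,
          ← Finset.sum_mul, Finset.sum_neg_distrib, hpa, hrb, Real.negMulLog, Real.negMulLog]
        ring

end Vale.Agent.P358
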