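import Vale.Agent.P358.Capacity

/-!
The one-variable formula for the classical capacity.
-/

open Matrix
open scoped ComplexOrder

namespace Vale.Agent.P358

/-- Entanglement-of-formation type function. -/
noncomputable def eofFun (c : ℝ) : ℝ := Real.binEntropy ((1 + Real.sqrt (1 - c ^ 2)) / 2)

/-- The auxiliary function whose monotonicity gives convexity of `eofFun`. -/
noncomputable def eofAux (r : ℝ) : ℝ :=
  Real.sqrt (1 - r ^ 2) * (Real.log (1 + r) - Real.log (1 - r)) / r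

lemma two_mul_le_log_sub {r : ℝ} (h0 : 0 ≤ r) (h1 : r < 1) :
    2 * r ≤ Real.log (1 + r) - Real.log (1 - r) := by
  have h := Real.sum_range_le_log_div h0 h1 1
  rw [Real.log_div (by linarith) (by linarith)] at h
  simp at h
  linarith

lemma eofAux_antitone : AntitoneOn eofAux (Set.Ioo 0 1) := by
  have hd : ∀ r ∈ Set.Ioo (0 : ℝ) 1, HasDerivAt eofAux
      ((2 * r - (Real.log (1 + r) - Real.log (1 - r))) / (Real.sqrt (1 - r ^ 2) * r ^ 2)) r := by
    intro r hr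
    obtain ⟨h0, h1⟩ := hr
    have hs : 0 < 1 - r ^ 2 := by nlinarith
    have d1 : HasDerivAt (fun x : ℝ => 1 - x ^ 2) (-(2 * r)) r := by
      simpa using ((hasDerivAt_id r).pow 2).const_sub 1
    have d2 : HasDerivAt (fun x : ℝ => Real.log (1 - x)) ((-1) / (1 - r)) r :=
      ((hasDerivAt_id r).const_sub 1).log (by simp only [id_eq]; linarith)
    have d3 := hasDerivAt_log_add (a := (1 : ℝ)) (s := r) (by linarith)
    refine (((d1.sqrt hs.ne').fun_mul (d3.fun_sub d2)).fun_div (hasDerivAt_id r) h0.ne').congr_deriv ?_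
    have hsq := Real.mul_self_sqrt hs.le
    have hspos := Real.sqrt_pos.2 hs
    simp only [id_eq]
    field_simp
    grind
  refine antitoneOn_of_hasDerivWithinAt_nonpos (convex_Ioo 0 1) ?_
    (f' := fun r => (2 * r - (Real.log (1 + r) - Real.log (1 - r))) / (Real.sqrt (1 - r ^ 2) * r ^ 2))
    ?_ ?_
  · exact fun r hr => (hd r hr).continuousAt.continuousWithinAt
  · intro r hr
    rw [interior_Ioo] at hr
    exact (hd r hr).hasDerivWithinAt
  · intro r hr
    rw [interior_Ioo] at hr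
    exact div_nonpos_of_nonpos_of_nonneg (by linarith [two_mul_le_log_sub hr.1.le hr.2])
      (by positivity)

lemma sqrt_one_sub_sq_mem {c : ℝ} (hc : c ∈ Set.Ioo (0 : ℝ) 1) :
    Real.sqrt (1 - c ^ 2) ∈ Set.Ioo (0 : ℝ) 1 := by
  obtain ⟨h0, h1⟩ := hc
  refine ⟨Real.sqrt_pos.2 (by nlinarith), ?_⟩
  rw [Real.sqrt_lt' one_pos]
  nlinarith

lemma hasDerivAt_eofFun {c : ℝ} (hc : c ∈ Set.Ioo (0 : ℝ) 1) :
    HasDerivAt eofFun (eofAux (Real.sqrt (1 - c ^ 2)) / 2) c := by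
  obtain ⟨hr0, hr1⟩ := sqrt_one_sub_sq_mem hc
  obtain ⟨h0, h1⟩ := hc
  have hs : 0 < 1 - c ^ 2 := by nlinarith
  set r := Real.sqrt (1 - c ^ 2) with hr
  have hc' : Real.sqrt (1 - r ^ 2) = c := by
    rw [hr, Real.sq_sqrt hs.le, sub_sub_cancel, Real.sqrt_sq h0.le]
  have d1 : HasDerivAt (fun x : ℝ => 1 - x ^ 2) (-(2 * c)) c := by
    simpa using ((hasDerivAt_id c).pow 2).const_sub 1
  have d2 : HasDerivAt (fun x : ℝ => (1 + Real.sqrt (1 - x ^ 2)) / 2) (-(2 * c) / (2 * r) / 2) c :=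
    ((d1.sqrt hs.ne').const_add 1).div_const 2
  have d3 := Real.hasDerivAt_binEntropy (p := (1 + r) / 2) (by linarith) (by linarith)
  refine (d3.comp c d2).congr_deriv ?_
  rw [eofAux, hc', show 1 - (1 + r) / 2 = (1 - r) / 2 by ring, Real.log_div (by linarith) two_ne_zero,
    Real.log_div (by linarith) two_ne_zero]
  field_simp
  ring

lemma continuous_eofFun : Continuous eofFun := by
  unfold eofFun
  exact Real.binEntropy_continuous.comp (by fun_prop)

lemma eofFun_monotone : MonotoneOn eofFun (Set.Icc 0 1) := by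
  refine monotoneOn_of_hasDerivWithinAt_nonneg (convex_Icc 0 1) continuous_eofFun.continuousOn
    (f' := fun c => eofAux (Real.sqrt (1 - c ^ 2)) / 2) ?_ ?_
  · intro c hc
    rw [interior_Icc] at hc
    exact (hasDerivAt_eofFun hc).hasDerivWithinAt
  · intro c hc
    rw [interior_Icc] at hc
    obtain ⟨h0, h1⟩ := sqrt_one_sub_sq_mem hc
    have := two_mul_le_log_sub h0.le h1
    have : 0 ≤ eofAux (Real.sqrt (1 - c ^ 2)) :=
      div_nonneg (mul_nonneg (Real.sqrt_nonneg _) (by linarith)) h0.le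
    positivity

lemma eofFun_convex : ConvexOn ℝ (Set.Icc 0 1) eofFun := by
  refine MonotoneOn.convexOn_of_deriv (convex_Icc 0 1) continuous_eofFun.continuousOn ?_ ?_
  · rw [interior_Icc]
    exact fun c hc => (hasDerivAt_eofFun hc).differentiableAt.differentiableWithinAt
  · rw [interior_Icc]
    intro a ha b hb hab
    rw [(hasDerivAt_eofFun ha).deriv, (hasDerivAt_eofFun hb).deriv]
    refine div_le_div_of_nonneg_right ?_ zero_le_two
    refine eofAux_antitone (sqrt_one_sub_sq_mem hb) (sqrt_one_sub_sq_mem ha) ?_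
    exact Real.sqrt_le_sqrt (by nlinarith [ha.1])

lemma sqrt_quad_jensen {ι : Type*} [Fintype ι] {K L : ℝ} (hK : 0 ≤ K) (hL : 0 ≤ L) {p x : ι → ℝ}
    (hp : ∀ k, 0 ≤ p k) (hp1 : ∑ k, p k = 1) :
    Real.sqrt (K * (∑ k, p k * x k) ^ 2 + L) ≤ ∑ k, p k * Real.sqrt (K * x k ^ 2 + L) := by
  rw [Real.sqrt_le_iff]
  refine ⟨Finset.sum_nonneg fun k _ => mul_nonneg (hp k) (Real.sqrt_nonneg _), ?_⟩
  have h : K * (∑ k, p k * x k) ^ 2 + L
      = ∑ k, ∑ l, p k * p l * (K * (x k * x l) + L) := by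
    simp only [mul_add, Finset.sum_add_distrib, ← Finset.sum_mul, ← Finset.mul_sum, hp1, mul_one,
      one_mul]
    congr 1
    rw [sq, Finset.sum_mul_sum, Finset.mul_sum]
    refine Finset.sum_congr rfl fun k _ => ?_
    rw [Finset.mul_sum]
    exact Finset.sum_congr rfl fun l _ => by ring
  rw [h, sq, Finset.sum_mul_sum]
  refine Finset.sum_le_sum fun k _ => Finset.sum_le_sum fun l _ => ?_
  rw [mul_mul_mul_comm (p k)]
  refine mul_le_mul_of_nonneg_left ?_ (mul_nonneg (hp k) (hp l))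
  rw [← Real.sqrt_mul (by positivity)]
  exact Real.le_sqrt_of_sq_le (by nlinarith [mul_nonneg (mul_nonneg hK hL) (sq_nonneg (x k - x l))])

variable {γ ν : ℝ}

lemma det_form (γ ν a b : ℝ) (h : a + b = 1) :
    ((1 - γ * ν) * a + γ * (1 - ν) * b) * (γ * ν * a + (1 - γ + γ * ν) * b) - (1 - γ) * a * b
      = γ * ((1 - γ) * (b - ν) ^ 2 + ν * (1 - ν)) := by
  rw [eq_sub_of_add_eq h]
  ring

lemma four_det_mem (hγ : γ ∈ Set.Icc (0 : ℝ) 1) (hν : ν ∈ Set.Icc (0 : ℝ) 1) {q : ℝ}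
    (hq : q ∈ Set.Icc (0 : ℝ) 1) :
    0 ≤ 4 * γ * ((1 - γ) * (q - ν) ^ 2 + ν * (1 - ν)) ∧
      4 * γ * ((1 - γ) * (q - ν) ^ 2 + ν * (1 - ν)) ≤ 1 := by
  obtain ⟨g0, g1⟩ := hγ
  obtain ⟨n0, n1⟩ := hν
  obtain ⟨q0, q1⟩ := hq
  constructor
  · have : 0 ≤ ν * (1 - ν) := mul_nonneg n0 (by linarith)
    have : 0 ≤ (1 - γ) * (q - ν) ^ 2 := mul_nonneg (by linarith) (sq_nonneg _)
    positivity
  · nlinarith [sq_nonneg (2 * ((1 - γ) * q + γ * ν) - 1),
      mul_nonneg (mul_nonneg (sub_nonneg.2 g1) q0) (sub_nonneg.2 q1)]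

lemma gfun_eq_eof (hγ : γ ∈ Set.Icc (0 : ℝ) 1) (hν : ν ∈ Set.Icc (0 : ℝ) 1) {a b : ℝ} (ha : 0 ≤ a)
    (hb : 0 ≤ b) (hab : a + b = 1) :
    gfun γ ν a b = eofFun (Real.sqrt (4 * γ * ((1 - γ) * (b - ν) ^ 2 + ν * (1 - ν)))) := by
  rw [gfun, det_form γ ν a b hab, hab, eofFun, Real.sq_sqrt (four_det_mem hγ hν ⟨hb, by linarith⟩).1,
    Real.binEntropy_eq_negMulLog_add_negMulLog_one_sub, s2, rootP, rootM, one_pow,
    ← mul_assoc 4 γ]
  congr 2
  ring

/-- The one-variable objective, in bits. -/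
lemma holevo_gadc_isGreatest (hγ : γ ∈ Set.Icc (0 : ℝ) 1) (hν : ν ∈ Set.Icc (0 : ℝ) 1) :
    IsGreatest ((fun q : ℝ => (Real.binEntropy ((1 - γ) * q + γ * ν) - Real.binEntropy
        ((1 + Real.sqrt (1 - 4 * γ * ((1 - γ) * (q - ν) ^ 2 + ν * (1 - ν)))) / 2)) / Real.log 2)
        '' Set.Icc 0 1) (holevo (gadc γ ν)) := by
  set F := fun q : ℝ => (Real.binEntropy ((1 - γ) * q + γ * ν) - Real.binEntropy
        ((1 + Real.sqrt (1 - 4 * γ * ((1 - γ) * (q - ν) ^ 2 + ν * (1 - ν)))) / 2)) / Real.log 2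
  set c := fun q : ℝ => Real.sqrt (4 * γ * ((1 - γ) * (q - ν) ^ 2 + ν * (1 - ν)))
  have hlog : (0 : ℝ) < Real.log 2 := Real.log_pos one_lt_two
  have hF : ∀ q ∈ Set.Icc (0 : ℝ) 1,
      F q * Real.log 2 = Real.binEntropy ((1 - γ) * q + γ * ν) - eofFun (c q) := by
    intro q hq
    simp only [F, c, eofFun, Real.sq_sqrt (four_det_mem hγ hν hq).1]
    field_simp
  have hcm : ∀ q ∈ Set.Icc (0 : ℝ) 1, c q ∈ Set.Icc (0 : ℝ) 1 := fun q hq =>
    ⟨Real.sqrt_nonneg _, by rw [Real.sqrt_le_one]; exact (four_det_mem hγ hν hq).2⟩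
  have hlow : ∀ q ∈ Set.Icc (0 : ℝ) 1, F q ≤ holevo (gadc γ ν) := by
    intro q hq
    have h := scalar_le_holevo hγ hν (ι := Unit) (p := fun _ => 1) (a := fun _ => 1 - q)
      (b := fun _ => q) (fun _ => zero_le_one) (by simp) (fun _ => by linarith [hq.2])
      (fun _ => hq.1) (fun _ => by simp)
    simp only [Fintype.sum_unique, one_mul, gfun_eq_eof hγ hν (sub_nonneg.2 hq.2) hq.1
      (sub_add_cancel 1 q)] at h
    rw [← mul_le_mul_iff_of_pos_right hlog, hF q hq,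
      Real.binEntropy_eq_negMulLog_add_negMulLog_one_sub]
    have e1 : (1 - γ * ν) * (1 - q) + γ * (1 - ν) * q = 1 - ((1 - γ) * q + γ * ν) := by ring
    have e2 : γ * ν * (1 - q) + (1 - γ + γ * ν) * q = (1 - γ) * q + γ * ν := by ring
    rw [e1, e2] at h
    simp only [c]
    linarith
  have hcont : ContinuousOn F (Set.Icc 0 1) :=
    ((Real.binEntropy_continuous.comp (by fun_prop)).sub
      (Real.binEntropy_continuous.comp (by fun_prop))).div_const _ |>.continuousOn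
  obtain ⟨q₀, hq₀, hmax⟩ := isCompact_Icc.exists_isMaxOn (Set.nonempty_Icc.2 zero_le_one) hcont
  have hup : holevo (gadc γ ν) ≤ F q₀ := by
    have h1 := (holevo_tensorPow hγ hν 1).2
    rw [Nat.cast_one, one_mul] at h1
    rw [← h1]
    obtain ⟨v₀, hv₀⟩ := nonempty_holevoSet_gadc hγ hν
    refine csSup_le ⟨_, mul_mem_holevoSet hγ hν hv₀ 1⟩ fun v hv => ?_
    obtain ⟨k, p, ρ, hp, hp1, hρ, rfl⟩ :=
      exists_of_mem_holevoSet (fun ρ h => isState_tensorPow hγ hν 1 h) hv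
    rw [div_le_iff₀ hlog]
    refine (hol_tensorPow_le' hγ hν (M := F q₀ * Real.log 2) ?_ 1 (Fin k) p ρ hp hp1 hρ).trans
      (le_of_eq (by simp))
    intro ι _ p a b hp hp1 ha hb hab
    set q := ∑ k, p k * b k
    have hq : q ∈ Set.Icc (0 : ℝ) 1 := by
      refine ⟨Finset.sum_nonneg fun k _ => mul_nonneg (hp k) (hb k), ?_⟩
      refine (Finset.sum_le_sum fun k _ => ?_).trans_eq hp1
      exact mul_le_of_le_one_right (hp k) (by linarith [ha k, hab k])
    refine le_trans ?_ (mul_le_mul_of_nonneg_right (hmax hq) hlog.le)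
    rw [hF q hq, Real.binEntropy_eq_negMulLog_add_negMulLog_one_sub]
    have hsa : ∑ k, p k * a k = 1 - q := by
      rw [eq_sub_iff_add_eq, ← Finset.sum_add_distrib]
      exact (Finset.sum_congr rfl fun k _ => by rw [← mul_add, hab k, mul_one]).trans hp1
    have e1 : ∑ k, p k * ((1 - γ * ν) * a k + γ * (1 - ν) * b k)
        = (1 - γ * ν) * (1 - q) + γ * (1 - ν) * q := by
      rw [← hsa, Finset.mul_sum, Finset.mul_sum, ← Finset.sum_add_distrib]
      exact Finset.sum_congr rfl fun k _ => by ring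
    have e2 : ∑ k, p k * (γ * ν * a k + (1 - γ + γ * ν) * b k)
        = γ * ν * (1 - q) + (1 - γ + γ * ν) * q := by
      rw [← hsa, Finset.mul_sum, Finset.mul_sum, ← Finset.sum_add_distrib]
      exact Finset.sum_congr rfl fun k _ => by ring
    have hbI : ∀ k, b k ∈ Set.Icc (0 : ℝ) 1 := fun k => ⟨hb k, by linarith [ha k, hab k]⟩
    have hJ : eofFun (c q) ≤ ∑ k, p k * gfun γ ν (a k) (b k) := by
      have hs : ∑ k, p k * c (b k) ∈ Set.Icc (0 : ℝ) 1 :=
        (convex_Icc 0 1).sum_mem (fun k _ => hp k) hp1 fun k _ => hcm _ (hbI k)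
      have h1 : c q ≤ ∑ k, p k * c (b k) := by
        have h := sqrt_quad_jensen (x := fun k => b k - ν)
          (K := 4 * γ * (1 - γ)) (L := 4 * γ * (ν * (1 - ν)))
          (mul_nonneg (by linarith [hγ.1]) (by linarith [hγ.2]))
          (mul_nonneg (by linarith [hγ.1]) (mul_nonneg hν.1 (by linarith [hν.2]))) hp hp1
        simp only [mul_sub, Finset.sum_sub_distrib, ← Finset.sum_mul, hp1, one_mul] at h
        refine le_trans (le_of_eq ?_) (h.trans (le_of_eq ?_))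
        · simp only [c, q]; congr 1; ring
        · refine Finset.sum_congr rfl fun k _ => ?_
          simp only [c]; congr 2; ring
      refine (eofFun_monotone (hcm q hq) hs h1).trans ?_
      refine (eofFun_convex.map_sum_le (fun k _ => hp k) hp1 fun k _ => hcm _ (hbI k)).trans_eq ?_
      exact Finset.sum_congr rfl fun k _ => by
        rw [smul_eq_mul, gfun_eq_eof hγ hν (ha k) (hb k) (hab k)]
    rw [e1, e2, show (1 - γ * ν) * (1 - q) + γ * (1 - ν) * q = 1 - ((1 - γ) * q + γ * ν) by ring,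
      show γ * ν * (1 - q) + (1 - γ + γ * ν) * q = (1 - γ) * q + γ * ν by ring]
    linarith
  exact ⟨⟨q₀, hq₀, le_antisymm (hlow q₀ hq₀) hup⟩, by rintro _ ⟨q, hq, rfl⟩; exact hlow q hq⟩

end Vale.Agent.P358
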