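import Vale.Agent.P358.CoreLimit

/-!
The one-site inequality for the generalized amplitude-damping channel acting on a qubit that may
be entangled with a second system.
-/

open Matrix
open scoped ComplexOrder

namespace Vale.Agent.P358

variable {n : Type*} [Fintype n] [DecidableEq n]

/-- Entropy (in nats) of the channel output on the pure state with populations `a`, `b`. -/
noncomputable def gfun (γ ν a b : ℝ) : ℝ :=
  s2 (a + b) (((1 - γ * ν) * a + γ * (1 - ν) * b) * (γ * ν * a + (1 - γ + γ * ν) * b)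
    - (1 - γ) * a * b)

lemma Sent_smul_sub {A : Matrix n n ℂ} (hA : A.IsHermitian) (c : ℝ) :
    Sent ((c : ℂ) • A) - Real.negMulLog (c * A.trace.re)
      = c * (Sent A - Real.negMulLog A.trace.re) := by
  rw [Sent_smul hA, Real.negMulLog_mul]
  ring

lemma smul_conjTranspose_mul_smul {m : Type*} [Fintype m] (c d : ℝ) (F G : Matrix m n ℂ) :
    ((c : ℂ) • F)ᴴ * ((d : ℂ) • G) = ((c * d : ℝ) : ℂ) • (Fᴴ * G) := by
  rw [conjTranspose_smul, Matrix.smul_mul, Matrix.mul_smul, smul_smul]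
  simp

lemma Sent_add_ge {m : Type*} [Fintype m] [DecidableEq m] (X : Matrix m n ℂ) {Q : Matrix n n ℂ}
    (hQ : Q.PosSemidef) :
    Sent (Xᴴ * X) - Real.negMulLog (Xᴴ * X).trace.re + (Sent Q - Real.negMulLog Q.trace.re)
        + Real.negMulLog ((Xᴴ * X).trace.re + Q.trace.re) ≤ Sent (Xᴴ * X + Q) := by
  have h := core_ineq X (0 : Matrix m n ℂ) hQ (PosSemidef.zero (n := n) (R := ℂ))
  have e : ∀ u w : ℝ, Real.negMulLog (lamP u 0 w 0) + Real.negMulLog (lamM u 0 w 0)
      = Real.negMulLog (u + w) := by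
    intro u w
    have := s2_of_roots (u + w) 0
    simp only [add_zero, mul_zero, Real.negMulLog_zero, s2] at this
    simpa [lamP, lamM] using this
  simp only [conjTranspose_zero, Matrix.zero_mul, Matrix.mul_zero, add_zero, zero_add,
    trace_zero, Complex.zero_re, Sent_zero, Real.negMulLog_zero, sub_zero, Sent_fromBlocks] at h
  linarith [e (Xᴴ * X).trace.re Q.trace.re]

lemma kraus_facts {γ ν : ℝ} (hγ : γ ∈ Set.Icc (0 : ℝ) 1) (hν : ν ∈ Set.Icc (0 : ℝ) 1) :
    0 ≤ 1 - γ * ν ∧ 0 ≤ γ * ν ∧ 0 ≤ γ * (1 - ν) ∧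
      0 ≤ 1 - γ + γ * ν - (1 - γ) / (1 - γ * ν) ∧
      Real.sqrt (1 - γ * ν) * (Real.sqrt (1 - γ) / Real.sqrt (1 - γ * ν)) = Real.sqrt (1 - γ) ∧
      (Real.sqrt (1 - γ) / Real.sqrt (1 - γ * ν)) * (Real.sqrt (1 - γ) / Real.sqrt (1 - γ * ν))
        = (1 - γ) / (1 - γ * ν) ∧
      (1 - γ * ν) * ((1 - γ) / (1 - γ * ν)) = 1 - γ := by
  obtain ⟨g0, g1⟩ := hγ
  obtain ⟨n0, n1⟩ := hν
  have hp : 0 ≤ 1 - γ * ν := by nlinarith [mul_le_one₀ g1 n0 n1]
  have key : 1 - γ * ν = 0 → 1 - γ = 0 := fun h => by nlinarith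
  refine ⟨hp, mul_nonneg g0 n0, mul_nonneg g0 (by linarith), ?_, ?_, ?_, ?_⟩
  · rcases hp.eq_or_lt with h | h
    · rw [← h, div_zero]
      nlinarith
    · rw [sub_nonneg, div_le_iff₀ h]
      nlinarith [mul_nonneg (mul_nonneg g0 g0) (mul_nonneg n0 (sub_nonneg.2 n1))]
  · rcases hp.eq_or_lt with h | h
    · rw [key h.symm]
      simp
    · field_simp
  · rw [div_mul_div_comm, Real.mul_self_sqrt (by linarith), Real.mul_self_sqrt hp]
  · rcases hp.eq_or_lt with h | h
    · rw [key h.symm]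
      simp
    · field_simp

/-- One-site inequality. -/
theorem one_site {γ ν : ℝ} (hγ : γ ∈ Set.Icc (0 : ℝ) 1) (hν : ν ∈ Set.Icc (0 : ℝ) 1)
    {A B C : Matrix n n ℂ} (hM : (fromBlocks A C Cᴴ B).PosSemidef) :
    Sent A + Sent B + gfun γ ν A.trace.re B.trace.re
        - Real.negMulLog A.trace.re - Real.negMulLog B.trace.re
      ≤ Sent (fromBlocks (((1 - γ * ν : ℝ) : ℂ) • A + ((γ * (1 - ν) : ℝ) : ℂ) • B)
          (((Real.sqrt (1 - γ) : ℝ) : ℂ) • C) (((Real.sqrt (1 - γ) : ℝ) : ℂ) • Cᴴ)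
          (((γ * ν : ℝ) : ℂ) • A + ((1 - γ + γ * ν : ℝ) : ℂ) • B)) := by
  obtain ⟨hp, hα, hβ, hr, hce, hcc, hpc⟩ := kraus_facts hγ hν
  set S := sfun hM.1 Real.sqrt with hSdef
  have hS : Sᴴ * S = fromBlocks A C Cᴴ B := by
    rw [show Sᴴ = S from conjDiag_isHermitian _ _, hSdef, sfun_mul,
      sfun_congr hM.1 (g := fun x => x) fun i => Real.mul_self_sqrt (hM.eigenvalues_nonneg i),
      sfun_id]
  set F₀ := S.submatrix id Sum.inl
  set F₁ := S.submatrix id Sum.inr
  have hA : F₀ᴴ * F₀ = A := by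
    ext i j
    exact congr_fun (congr_fun hS (Sum.inl i)) (Sum.inl j)
  have hB : F₁ᴴ * F₁ = B := by
    ext i j
    exact congr_fun (congr_fun hS (Sum.inr i)) (Sum.inr j)
  have hC : F₀ᴴ * F₁ = C := by
    ext i j
    exact congr_fun (congr_fun hS (Sum.inl i)) (Sum.inr j)
  have hC' : F₁ᴴ * F₀ = Cᴴ := by
    ext i j
    exact congr_fun (congr_fun hS (Sum.inr i)) (Sum.inl j)
  have hAp : A.PosSemidef := hA ▸ posSemidef_conjTranspose_mul_self F₀
  have hBp : B.PosSemidef := hB ▸ posSemidef_conjTranspose_mul_self F₁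
  set p := 1 - γ * ν
  set α := γ * ν
  set β := γ * (1 - ν)
  set e := Real.sqrt (1 - γ)
  set c := e / Real.sqrt p
  set r' := 1 - γ + γ * ν - (1 - γ) / p
  have hQ : ((β : ℂ) • B).PosSemidef := hBp.smul (Complex.zero_le_real.2 hβ)
  have hR : ((r' : ℂ) • B).PosSemidef := hBp.smul (Complex.zero_le_real.2 hr)
  have hN : (((α : ℂ) • A) + (r' : ℂ) • B).PosSemidef :=
    (hAp.smul (Complex.zero_le_real.2 hα)).add hR
  have h1 := core_ineq (((Real.sqrt p : ℝ) : ℂ) • F₀) ((c : ℂ) • F₁) hQ hN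
  have h2 := Sent_add_ge (((Real.sqrt α : ℝ) : ℂ) • F₀) hR
  rw [smul_conjTranspose_mul_smul, smul_conjTranspose_mul_smul, smul_conjTranspose_mul_smul,
    smul_conjTranspose_mul_smul, hA, hB, hC, hC', Real.mul_self_sqrt hp, hce, hcc,
    mul_comm c, hce] at h1
  rw [smul_conjTranspose_mul_smul, hA, Real.mul_self_sqrt hα] at h2
  have hadd : (((1 - γ) / p : ℝ) : ℂ) • B + ((α : ℂ) • A + (r' : ℂ) • B)
      = (α : ℂ) • A + ((1 - γ + γ * ν : ℝ) : ℂ) • B := by
    rw [add_left_comm, ← add_smul, ← Complex.ofReal_add, add_sub_cancel]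
  rw [hadd] at h1
  have etr : ∀ (x : ℝ) (M : Matrix n n ℂ), ((x : ℂ) • M).trace.re = x * M.trace.re := by
    intro x M
    simp [trace_smul]
  simp only [etr, trace_add, Complex.add_re] at h1 h2
  set a := A.trace.re
  set b := B.trace.re
  have eg : gfun γ ν a b = Real.negMulLog (lamP (p * a) ((1 - γ) / p * b) (β * b) (α * a + r' * b))
      + Real.negMulLog (lamM (p * a) ((1 - γ) / p * b) (β * b) (α * a + r' * b)) := by
    have eT : p * a + (1 - γ) / p * b + β * b + (α * a + r' * b) = a + b := by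
      simp only [p, α, β, r']; ring
    have eD : p * a * (α * a + r' * b) + β * b * ((1 - γ) / p * b) + β * b * (α * a + r' * b)
        = (p * a + β * b) * (α * a + (1 - γ + γ * ν) * b) - (1 - γ) * a * b := by
      simp only [r']
      linear_combination (-(a * b)) * hpc
    rw [lamP, lamM, eT, eD]
    rfl
  have k1 := Sent_smul_sub hAp.1 p
  have k2 := Sent_smul_sub hBp.1 ((1 - γ) / p)
  have k3 := Sent_smul_sub hBp.1 β
  have k4 := Sent_smul_sub hAp.1 α
  have k5 := Sent_smul_sub hBp.1 r'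
  have ks : p * (Sent A - Real.negMulLog a) + α * (Sent A - Real.negMulLog a)
      + (1 - γ) / p * (Sent B - Real.negMulLog b) + β * (Sent B - Real.negMulLog b)
      + r' * (Sent B - Real.negMulLog b)
      = Sent A - Real.negMulLog a + (Sent B - Real.negMulLog b) := by
    simp only [p, α, β, r']; ring
  linarith

end Vale.Agent.P358
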