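import Vale.Agent.P358.Defs

/-!
Spectral helpers: functions of Hermitian matrices, log-determinants, eigenvalue counting.
-/

open Matrix
open scoped ComplexOrder

namespace Vale.Agent.P358

variable {n m κ : Type*} [Fintype n] [DecidableEq n] [Fintype m] [DecidableEq m]

/-- The real quadratic form of a matrix. -/
noncomputable def qform (M : Matrix n n ℂ) (v : n → ℂ) : ℝ := (star v ⬝ᵥ (M *ᵥ v)).re

/-- Squared Euclidean norm. -/
noncomputable def sqn (v : n → ℂ) : ℝ := ∑ i, Complex.normSq (v i)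

/-- `U diag(d) U*`. -/
noncomputable def conjDiag (U : Matrix n n ℂ) (d : n → ℝ) : Matrix n n ℂ :=
  U * diagonal (fun i => (d i : ℂ)) * Uᴴ

/-- A function applied to a Hermitian matrix. -/
noncomputable def sfun {A : Matrix n n ℂ} (hA : A.IsHermitian) (f : ℝ → ℝ) : Matrix n n ℂ :=
  conjDiag (hA.eigenvectorUnitary : Matrix n n ℂ) (fun i => f (hA.eigenvalues i))

/-- Logarithm of the determinant. -/
noncomputable def ld (H : Matrix n n ℂ) : ℝ := Real.log H.det.re

lemma eigU_left {A : Matrix n n ℂ} (hA : A.IsHermitian) :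
    (hA.eigenvectorUnitary : Matrix n n ℂ)ᴴ * (hA.eigenvectorUnitary : Matrix n n ℂ) = 1 := by
  rw [← star_eq_conjTranspose]
  exact Unitary.coe_star_mul_self _

lemma eigU_right {A : Matrix n n ℂ} (hA : A.IsHermitian) :
    (hA.eigenvectorUnitary : Matrix n n ℂ) * (hA.eigenvectorUnitary : Matrix n n ℂ)ᴴ = 1 := by
  rw [← star_eq_conjTranspose]
  exact Unitary.coe_mul_star_self _

lemma conjDiag_add (U : Matrix n n ℂ) (d e : n → ℝ) :
    conjDiag U d + conjDiag U e = conjDiag U (fun i => d i + e i) := by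
  simp only [conjDiag, ← Matrix.add_mul, ← Matrix.mul_add, diagonal_add, Complex.ofReal_add]

lemma conjDiag_sub (U : Matrix n n ℂ) (d e : n → ℝ) :
    conjDiag U d - conjDiag U e = conjDiag U (fun i => d i - e i) := by
  simp only [conjDiag, ← Matrix.sub_mul, ← Matrix.mul_sub, diagonal_sub, Complex.ofReal_sub]

lemma conjDiag_smul (U : Matrix n n ℂ) (d : n → ℝ) (c : ℝ) :
    (c : ℂ) • conjDiag U d = conjDiag U (fun i => c * d i) := by
  rw [conjDiag, conjDiag, ← Matrix.smul_mul, ← Matrix.mul_smul, ← diagonal_smul]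
  simp [Pi.smul_def]

lemma conjDiag_const {U : Matrix n n ℂ} (hU : U * Uᴴ = 1) (c : ℝ) :
    conjDiag U (fun _ => c) = (c : ℂ) • 1 := by
  have : diagonal (fun _ : n => (c : ℂ)) = (c : ℂ) • (1 : Matrix n n ℂ) := by
    rw [smul_one_eq_diagonal]
  simp [conjDiag, this, hU]

lemma conjDiag_isHermitian (U : Matrix n n ℂ) (d : n → ℝ) : (conjDiag U d).IsHermitian := by
  unfold conjDiag
  refine Matrix.isHermitian_mul_mul_conjTranspose U ?_
  rw [Matrix.isHermitian_diagonal_iff]
  intro i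
  simp [IsSelfAdjoint, Complex.conj_ofReal]

lemma conjDiag_posSemidef (U : Matrix n n ℂ) {d : n → ℝ} (hd : ∀ i, 0 ≤ d i) :
    (conjDiag U d).PosSemidef := by
  unfold conjDiag
  exact (posSemidef_diagonal_iff.2 fun i => Complex.zero_le_real.2 (hd i)).mul_mul_conjTranspose_same U

lemma conjDiag_mul {U : Matrix n n ℂ} (hU : Uᴴ * U = 1) (d e : n → ℝ) :
    conjDiag U d * conjDiag U e = conjDiag U (fun i => d i * e i) := by
  simp only [conjDiag, Complex.ofReal_mul, ← diagonal_mul_diagonal]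
  calc U * diagonal (fun i => (d i : ℂ)) * Uᴴ * (U * diagonal (fun i => (e i : ℂ)) * Uᴴ)
      = U * diagonal (fun i => (d i : ℂ)) * (Uᴴ * U) * diagonal (fun i => (e i : ℂ)) * Uᴴ := by
        simp only [Matrix.mul_assoc]
    _ = _ := by rw [hU, Matrix.mul_one]; simp only [Matrix.mul_assoc]

lemma trace_conjDiag {U : Matrix n n ℂ} (hU : Uᴴ * U = 1) (d : n → ℝ) :
    (conjDiag U d).trace.re = ∑ i, d i := by
  rw [conjDiag, Matrix.trace_mul_cycle, hU, Matrix.one_mul, trace_diagonal]
  simp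

lemma det_conjDiag {U : Matrix n n ℂ} (hU : U * Uᴴ = 1) (d : n → ℝ) :
    (conjDiag U d).det = ((∏ i, d i : ℝ) : ℂ) := by
  rw [conjDiag, det_mul, det_mul, mul_comm, ← mul_assoc, ← det_mul,
    mul_eq_one_comm.1 hU, det_one, one_mul, det_diagonal]
  simp

lemma herm_eq_conjDiag {A : Matrix n n ℂ} (hA : A.IsHermitian) :
    conjDiag (hA.eigenvectorUnitary : Matrix n n ℂ) hA.eigenvalues = A := by
  conv_rhs => rw [hA.spectral_theorem]
  rw [Unitary.conjStarAlgAut_apply, star_eq_conjTranspose]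
  rfl

lemma sfun_id {A : Matrix n n ℂ} (hA : A.IsHermitian) : sfun hA (fun x => x) = A :=
  herm_eq_conjDiag hA

lemma sfun_const {A : Matrix n n ℂ} (hA : A.IsHermitian) (c : ℝ) :
    sfun hA (fun _ => c) = (c : ℂ) • 1 := conjDiag_const (eigU_right hA) c

lemma sfun_add {A : Matrix n n ℂ} (hA : A.IsHermitian) (f g : ℝ → ℝ) :
    sfun hA f + sfun hA g = sfun hA (fun x => f x + g x) := conjDiag_add _ _ _

lemma sfun_sub {A : Matrix n n ℂ} (hA : A.IsHermitian) (f g : ℝ → ℝ) :
    sfun hA f - sfun hA g = sfun hA (fun x => f x - g x) := conjDiag_sub _ _ _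

lemma sfun_mul {A : Matrix n n ℂ} (hA : A.IsHermitian) (f g : ℝ → ℝ) :
    sfun hA f * sfun hA g = sfun hA (fun x => f x * g x) := conjDiag_mul (eigU_left hA) _ _

lemma sfun_congr {A : Matrix n n ℂ} (hA : A.IsHermitian) {f g : ℝ → ℝ}
    (h : ∀ i, f (hA.eigenvalues i) = g (hA.eigenvalues i)) : sfun hA f = sfun hA g := by
  unfold sfun; simp only [h]

lemma sfun_posSemidef {A : Matrix n n ℂ} (hA : A.IsHermitian) {f : ℝ → ℝ}
    (h : ∀ i, 0 ≤ f (hA.eigenvalues i)) : (sfun hA f).PosSemidef := conjDiag_posSemidef _ h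

lemma trace_sfun {A : Matrix n n ℂ} (hA : A.IsHermitian) (f : ℝ → ℝ) :
    (sfun hA f).trace.re = ∑ i, f (hA.eigenvalues i) := trace_conjDiag (eigU_left hA) _

lemma ld_sfun {A : Matrix n n ℂ} (hA : A.IsHermitian) {f : ℝ → ℝ}
    (h : ∀ i, 0 < f (hA.eigenvalues i)) :
    ld (sfun hA f) = ∑ i, Real.log (f (hA.eigenvalues i)) := by
  rw [ld, sfun, det_conjDiag (eigU_right hA), Complex.ofReal_re,
    Real.log_prod (fun i _ => (h i).ne')]

lemma trace_re_eq_sum {A : Matrix n n ℂ} (hA : A.IsHermitian) :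
    A.trace.re = ∑ i, hA.eigenvalues i := by
  conv_lhs => rw [← sfun_id hA]
  exact trace_sfun hA _

lemma ld_eq_sum {A : Matrix n n ℂ} (hA : A.IsHermitian) (h : ∀ i, 0 < hA.eigenvalues i) :
    ld A = ∑ i, Real.log (hA.eigenvalues i) := by
  conv_lhs => rw [← sfun_id hA]
  exact ld_sfun hA h

lemma trace_mul_nonneg {P D : Matrix n n ℂ} (hP : P.PosSemidef) (hD : D.PosSemidef) :
    0 ≤ (P * D).trace.re := by
  have h1 : sfun hD.1 Real.sqrt * sfun hD.1 Real.sqrt = D := by
    rw [sfun_mul, sfun_congr hD.1 (g := fun x => x)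
      (fun i => Real.mul_self_sqrt (hD.eigenvalues_nonneg i)), sfun_id]
  have hB : (sfun hD.1 Real.sqrt)ᴴ = sfun hD.1 Real.sqrt := conjDiag_isHermitian _ _
  rw [← h1, ← Matrix.mul_assoc, Matrix.trace_mul_comm, ← Matrix.mul_assoc]
  have h2 := (hP.mul_mul_conjTranspose_same (sfun hD.1 Real.sqrt)).trace_nonneg
  rw [hB] at h2
  exact (Complex.le_def.1 h2).1

lemma sqn_eq_dot (v : n → ℂ) : sqn v = (star v ⬝ᵥ v).re := by
  simp [sqn, dotProduct, Complex.normSq_apply, Complex.mul_re]

lemma qform_one_smul (c : ℝ) (v : n → ℂ) : qform ((c : ℂ) • (1 : Matrix n n ℂ)) v = c * sqn v := by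
  simp [qform, sqn_eq_dot, smul_mulVec, dotProduct_smul, Complex.mul_re]

lemma qform_add (A B : Matrix n n ℂ) (v : n → ℂ) :
    qform (A + B) v = qform A v + qform B v := by
  simp [qform, add_mulVec, dotProduct_add]

lemma qform_sub (A B : Matrix n n ℂ) (v : n → ℂ) :
    qform (A - B) v = qform A v - qform B v := by
  simp [qform, sub_mulVec, dotProduct_sub]

lemma qform_smul (c : ℝ) (A : Matrix n n ℂ) (v : n → ℂ) :
    qform ((c : ℂ) • A) v = c * qform A v := by
  simp [qform, smul_mulVec, dotProduct_smul, Complex.mul_re]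

lemma qform_nonneg {A : Matrix n n ℂ} (hA : A.PosSemidef) (v : n → ℂ) : 0 ≤ qform A v :=
  (Complex.le_def.1 (hA.dotProduct_mulVec_nonneg v)).1

lemma qform_conjTranspose_mul_self (F : Matrix m n ℂ) (v : n → ℂ) :
    qform (Fᴴ * F) v = sqn (F *ᵥ v) := by
  rw [qform, sqn_eq_dot, ← mulVec_mulVec, dotProduct_mulVec, ← star_mulVec]

lemma qform_conjDiag (U : Matrix n n ℂ) (d : n → ℝ) (v : n → ℂ) :
    qform (conjDiag U d) v = ∑ i, d i * Complex.normSq ((Uᴴ *ᵥ v) i) := by
  have h : star v ⬝ᵥ (conjDiag U d *ᵥ v)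
      = star (Uᴴ *ᵥ v) ⬝ᵥ (diagonal (fun i => (d i : ℂ)) *ᵥ (Uᴴ *ᵥ v)) := by
    simp only [conjDiag, ← mulVec_mulVec, dotProduct_mulVec, star_mulVec, conjTranspose_conjTranspose]
  rw [qform, h, dotProduct, Complex.re_sum]
  refine Finset.sum_congr rfl fun i _ => ?_
  simp [mulVec_diagonal, Complex.normSq_apply, Complex.mul_re, Complex.mul_im]
  ring

lemma qform_herm {A : Matrix n n ℂ} (hA : A.IsHermitian) (v : n → ℂ) :
    qform A v = ∑ i, hA.eigenvalues i
      * Complex.normSq (((hA.eigenvectorUnitary : Matrix n n ℂ)ᴴ *ᵥ v) i) := by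
  conv_lhs => rw [← herm_eq_conjDiag hA]
  exact qform_conjDiag _ _ _

lemma sqn_eigU {A : Matrix n n ℂ} (hA : A.IsHermitian) (v : n → ℂ) :
    sqn ((hA.eigenvectorUnitary : Matrix n n ℂ)ᴴ *ᵥ v) = sqn v := by
  rw [← qform_conjTranspose_mul_self, conjTranspose_conjTranspose, eigU_right, qform, one_mulVec,
    sqn_eq_dot]

lemma qform_le_trace {Q : Matrix n n ℂ} (hQ : Q.PosSemidef) (v : n → ℂ) :
    qform Q v ≤ Q.trace.re * sqn v := by
  rw [qform_herm hQ.1, ← sqn_eigU hQ.1 v, sqn, Finset.mul_sum, trace_re_eq_sum hQ.1]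
  refine Finset.sum_le_sum fun i _ => mul_le_mul_of_nonneg_right ?_ (Complex.normSq_nonneg _)
  exact Finset.single_le_sum (fun j _ => hQ.eigenvalues_nonneg j) (Finset.mem_univ i)

/-- If the form of `M` exceeds `t` on the range of `L`, then `M` has at least as many eigenvalues
above `t` as `L` has columns. -/
lemma card_le_count [Fintype κ] [DecidableEq κ] {M : Matrix m m ℂ} (hM : M.IsHermitian)
    (L : Matrix m κ ℂ) (t : ℝ)
    (h : ∀ z : κ → ℂ, z ≠ 0 → t * sqn (L *ᵥ z) < qform M (L *ᵥ z)) :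
    Fintype.card κ ≤ (Finset.univ.filter fun i => t < hM.eigenvalues i).card := by
  classical
  set U := (hM.eigenvectorUnitary : Matrix m m ℂ)
  let R : Matrix {i // t < hM.eigenvalues i} κ ℂ := Matrix.of fun i j => (Uᴴ * L) i.1 j
  have hR : Function.Injective R.mulVecLin := by
    rw [← LinearMap.ker_eq_bot, LinearMap.ker_eq_bot']
    intro z hz
    by_contra hne
    have hlt := h z hne
    rw [qform_herm hM, ← sqn_eigU hM (L *ᵥ z), sqn, Finset.mul_sum] at hlt
    refine absurd hlt (not_lt.2 (Finset.sum_le_sum fun i _ => ?_))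
    by_cases hi : t < hM.eigenvalues i
    · have h0 : (Uᴴ *ᵥ (L *ᵥ z)) i = 0 := by
        have := congr_fun hz ⟨i, hi⟩
        rw [mulVec_mulVec]
        rw [Matrix.mulVecLin_apply] at this
        simpa [R, mulVec, dotProduct, Matrix.of_apply] using this
      show hM.eigenvalues i * Complex.normSq ((Uᴴ *ᵥ (L *ᵥ z)) i) ≤
        t * Complex.normSq ((Uᴴ *ᵥ (L *ᵥ z)) i)
      simp [h0]
    · exact mul_le_mul_of_nonneg_right (not_lt.1 hi) (Complex.normSq_nonneg _)
  have := LinearMap.finrank_le_finrank_of_injective hR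
  rw [Module.finrank_fintype_fun_eq_card, Module.finrank_fintype_fun_eq_card,
    Fintype.card_subtype] at this
  exact this

/-- The selected eigenvector columns. -/
lemma eigU_cols {A : Matrix n n ℂ} (hA : A.IsHermitian) (P : n → Prop) [DecidablePred P]
    {b : ℝ} (hb : ∀ i, P i → b < hA.eigenvalues i) (z : {i // P i} → ℂ) (hz : z ≠ 0) :
    let v := (fun i (j : {i // P i}) => (hA.eigenvectorUnitary : Matrix n n ℂ) i j.1 :
        Matrix n {i // P i} ℂ) *ᵥ z
    b * sqn v < qform A v := by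
  intro v
  set U := (hA.eigenvectorUnitary : Matrix n n ℂ)
  let e : n → ℂ := fun i => if h : P i then z ⟨i, h⟩ else 0
  have hv : v = U *ᵥ e := by
    funext i
    simp only [v, mulVec, dotProduct]
    rw [← Finset.sum_subset (Finset.subset_univ (Finset.univ.filter P))
      (fun j _ hj => by simp [e, show ¬ P j by simpa using hj])]
    rw [Finset.sum_subtype (p := P) (Finset.univ.filter P) (fun x => by simp) (fun j => U i j * e j)]
    refine Finset.sum_congr rfl fun j _ => ?_
    simp [e, j.2, U]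
  have hUe : Uᴴ *ᵥ v = e := by rw [hv, mulVec_mulVec, eigU_left, one_mulVec]
  rw [qform_herm hA, ← sqn_eigU hA v, sqn, Finset.mul_sum]
  change ∑ i, b * Complex.normSq ((Uᴴ *ᵥ v) i) <
    ∑ i, hA.eigenvalues i * Complex.normSq ((Uᴴ *ᵥ v) i)
  rw [hUe]
  obtain ⟨j, hj⟩ := Function.ne_iff.1 hz
  refine Finset.sum_lt_sum (fun i _ => ?_) ⟨j.1, Finset.mem_univ _, ?_⟩
  · by_cases hi : P i
    · exact mul_le_mul_of_nonneg_right (hb i hi).le (Complex.normSq_nonneg _)
    · simp [e, hi]
  · have hjz : e j.1 = z j := by simp [e, j.2]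
    rw [hjz]
    exact mul_lt_mul_of_pos_right (hb j j.2) (Complex.normSq_pos.2 hj)

/-- Log-determinant increases at least linearly. -/
lemma ld_step {H H' : Matrix n n ℂ} (hH : H.PosDef) (hH' : H'.PosDef) {c : ℝ} (hc : 0 < c)
    (hD : (H' - H).PosSemidef) (hle : ((c : ℂ) • 1 - H').PosSemidef) :
    ld H + (H' - H).trace.re / c ≤ ld H' := by
  have hpos : ∀ i, 0 < hH'.1.eigenvalues i := hH'.eigenvalues_pos
  set R := sfun hH'.1 (fun x => (Real.sqrt x)⁻¹)
  have hRh : Rᴴ = R := conjDiag_isHermitian _ _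
  have hRR : R * R = sfun hH'.1 (fun x => x⁻¹) := by
    rw [sfun_mul]
    exact sfun_congr _ fun i => by
      rw [← mul_inv, Real.mul_self_sqrt (hpos i).le]
  have hRHR : R * H' * R = 1 := by
    conv_lhs => rw [← sfun_id hH'.1]
    rw [sfun_mul, sfun_mul, sfun_congr hH'.1 (g := fun _ => (1 : ℝ)) ?_, sfun_const]
    · simp
    · intro i
      have := hpos i
      field_simp
      rw [Real.sq_sqrt this.le]
  set Z := R * H * R
  have hRinj : Function.Injective R.vecMul := by
    refine Matrix.vecMul_injective_of_isUnit ?_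
    refine ⟨⟨R, H' * R, by rw [← Matrix.mul_assoc]; exact hRHR, ?_⟩, rfl⟩
    exact mul_eq_one_comm.1 (by rw [← Matrix.mul_assoc]; exact hRHR)
  have hZ : Z.PosDef := by
    have := hH.mul_mul_conjTranspose_same (B := R) hRinj
    rwa [hRh] at this
  have hdetR : R.det * R.det * H'.det = 1 := by
    have := congrArg Matrix.det hRHR
    rw [det_mul, det_mul, det_one] at this
    linear_combination this
  have hdH : 0 < H.det.re := (Complex.lt_def.1 hH.det_pos).1
  have hdH' : 0 < H'.det.re := (Complex.lt_def.1 hH'.det_pos).1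
  have hdetZ : Z.det * H'.det = H.det := by
    show (R * H * R).det * H'.det = H.det
    rw [det_mul, det_mul]
    linear_combination H.det * hdetR
  have hlog : ld Z = ld H - ld H' := by
    have hi : H'.det.im = 0 := ((Complex.lt_def.1 hH'.det_pos).2).symm
    have h2 := congrArg Complex.re hdetZ
    rw [Complex.mul_re, hi, mul_zero, sub_zero] at h2
    have hz : 0 < Z.det.re := (Complex.lt_def.1 hZ.det_pos).1
    rw [ld, ld, ld, ← h2, Real.log_mul hz.ne' hdH'.ne']
    ring
  have htr : ld Z ≤ Z.trace.re - Fintype.card n := by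
    rw [ld_eq_sum hZ.1 hZ.eigenvalues_pos, trace_re_eq_sum hZ.1]
    calc ∑ i, Real.log (hZ.1.eigenvalues i) ≤ ∑ i, (hZ.1.eigenvalues i - 1) :=
          Finset.sum_le_sum fun i _ => Real.log_le_sub_one_of_pos (hZ.eigenvalues_pos i)
      _ = _ := by simp [Finset.sum_sub_distrib]
  have hZt : Z.trace.re = Fintype.card n - (sfun hH'.1 (fun x => x⁻¹) * (H' - H)).trace.re := by
    have : Z = 1 - R * (H' - H) * R := by
      rw [Matrix.mul_sub, Matrix.sub_mul, hRHR]
      abel
    rw [this, trace_sub, trace_one, Matrix.trace_mul_cycle, hRR]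
    simp
  have hci : ∀ i, hH'.1.eigenvalues i ≤ c := by
    intro i
    have hnn := qform_nonneg hle ⇑(hH'.1.eigenvectorBasis i)
    rw [qform_sub, qform_one_smul] at hnn
    have h1 : sqn ⇑(hH'.1.eigenvectorBasis i) = 1 := by
      have h2 := eigU_left hH'.1
      have h3 := congr_fun (congr_fun h2 i) i
      rw [Matrix.mul_apply, one_apply_eq] at h3
      rw [sqn_eq_dot]
      simp only [conjTranspose_apply, IsHermitian.eigenvectorUnitary_apply] at h3
      rw [dotProduct]
      simp only [Pi.star_apply]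
      rw [h3, Complex.one_re]
    have h4 : qform H' ⇑(hH'.1.eigenvectorBasis i) = hH'.1.eigenvalues i :=
      (hH'.1.eigenvalues_eq i).symm
    rw [h1, h4] at hnn
    linarith
  have hP : (sfun hH'.1 (fun x => x⁻¹) - sfun hH'.1 (fun _ => c⁻¹)).PosSemidef := by
    rw [sfun_sub]
    exact sfun_posSemidef _ fun i => by
      have := inv_anti₀ (hpos i) (hci i)
      linarith
  have h5 := trace_mul_nonneg hP hD
  rw [Matrix.sub_mul, trace_sub, sfun_const, Matrix.smul_mul, Matrix.one_mul, trace_smul,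
    Complex.sub_re, smul_eq_mul, Complex.mul_re, Complex.ofReal_re, Complex.ofReal_im, zero_mul,
    sub_zero] at h5
  rw [div_eq_inv_mul]
  linarith

/-- First-order lower bound for `log det (1 + P)`. -/
lemma ld_one_add {P : Matrix n n ℂ} (hP : P.PosSemidef) :
    P.trace.re - (P * P).trace.re ≤ ld (1 + P) := by
  have h1 : (1 : Matrix n n ℂ) + P = sfun hP.1 (fun x => 1 + x) := by
    rw [← sfun_add hP.1 (fun _ => 1) (fun x => x), sfun_const, sfun_id]
    simp
  have h2 : (P * P).trace.re = ∑ i, hP.1.eigenvalues i * hP.1.eigenvalues i := by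
    conv_lhs => rw [← sfun_id hP.1, sfun_mul, trace_sfun]
  rw [h1, h2, ld_sfun hP.1 (fun i => by linarith [hP.eigenvalues_nonneg i]), trace_re_eq_sum hP.1,
    ← Finset.sum_sub_distrib]
  refine Finset.sum_le_sum fun i _ => ?_
  have hx := hP.eigenvalues_nonneg i
  set x := hP.1.eigenvalues i
  have h := Real.one_sub_inv_le_log_of_pos (show (0:ℝ) < 1 + x by linarith)
  have : x - x * x ≤ 1 - (1 + x)⁻¹ := by
    have h3 : 1 - (1 + x)⁻¹ = x / (1 + x) := by field_simp; ring
    rw [h3, le_div_iff₀ (by linarith)]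
    nlinarith [mul_nonneg (mul_nonneg hx hx) hx]
  linarith

lemma trace_sq_add_le {X Y : Matrix n n ℂ} (hX : X.IsHermitian) (hY : Y.IsHermitian) :
    ((X + Y) * (X + Y)).trace.re ≤ 2 * (X * X).trace.re + 2 * (Y * Y).trace.re := by
  have h := (posSemidef_conjTranspose_mul_self (X - Y)).trace_nonneg
  rw [(hX.sub hY).eq] at h
  have h' := (Complex.le_def.1 h).1
  simp only [Matrix.sub_mul, Matrix.mul_sub, trace_sub, Complex.sub_re, Complex.zero_re] at h'
  simp only [Matrix.add_mul, Matrix.mul_add, trace_add, Complex.add_re]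
  linarith

end Vale.Agent.P358
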